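import Mathlib

/-!
# Roots of units in finite dimensional algebras

`k` algebraically closed of characteristic `p`, `e` prime to `p`, `f` a unit of a finite
dimensional `k`-algebra: there is `c ∈ k[f]` with `c ^ e * f = 1`.
-/

namespace Vale.P179.H815

open Polynomial

theorem prod_dvd_pow {k : Type*} [Field k] (ρ : k[X]) (M : Multiset k)
    (h : ∀ a ∈ M, (X - C a) ∣ ρ) : (M.map fun a => X - C a).prod ∣ ρ ^ M.card := by
  induction M using Multiset.induction_on with
  | empty => simp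
  | cons a M ih =>
    rw [Multiset.map_cons, Multiset.prod_cons, Multiset.card_cons, pow_succ']
    exact mul_dvd_mul (h a (Multiset.mem_cons_self a M))
      (ih fun b hb => h b (Multiset.mem_cons_of_mem hb))

theorem zero_not_root {k : Type*} [Field k] {A : Type*} [Ring A] [Algebra k A]
    [FiniteDimensional k A] {f : A} (hf : IsUnit f) : ¬ (minpoly k f).IsRoot 0 := by
  intro h
  have hint : IsIntegral k f := Algebra.IsIntegral.isIntegral f
  have hm0 : minpoly k f ≠ 0 := minpoly.ne_zero hint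
  obtain ⟨g, hg⟩ : (X : k[X]) ∣ minpoly k f := by
    have := dvd_iff_isRoot.mpr h
    simpa using this
  have hg0 : g ≠ 0 := by
    rintro rfl
    exact hm0 (by rw [hg, mul_zero])
  have h1 : f * aeval f g = 0 := by
    have h2 := minpoly.aeval k f
    rw [hg, map_mul, aeval_X] at h2
    exact h2
  have h2 : aeval f g = 0 := by
    obtain ⟨u, rfl⟩ := hf
    exact (Units.mul_right_eq_zero u).mp h1
  have h3 : minpoly k f ∣ g := minpoly.dvd k f h2
  have h4 := natDegree_le_of_dvd h3 hg0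
  rw [hg, natDegree_mul X_ne_zero hg0, natDegree_X] at h4
  omega

theorem exists_root (p : ℕ) [Fact p.Prime] (k : Type*) [Field k] [IsAlgClosed k] [CharP k p]
    (A : Type*) [Ring A] [Algebra k A] [FiniteDimensional k A] (e : ℕ) (he : e.Coprime p)
    (f : A) (hf : IsUnit f) : ∃ c ∈ Algebra.adjoin k {f}, c ^ e * f = 1 := by
  classical
  have hp : p.Prime := Fact.out
  have he0 : 0 < e := by
    rcases Nat.eq_zero_or_pos e with rfl | h
    · rw [Nat.coprime_zero_left] at he
      exact absurd he hp.one_lt.ne'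
    · exact h
  by_cases hnt : Nontrivial A
  swap
  · rw [not_nontrivial_iff_subsingleton] at hnt
    exact ⟨1, one_mem _, Subsingleton.elim _ _⟩
  have hint : IsIntegral k f := Algebra.IsIntegral.isIntegral f
  have hm0 : minpoly k f ≠ 0 := minpoly.ne_zero hint
  have h0 := zero_not_root (k := k) hf
  have hroot : ∀ a : k, ∃ b : k, a ≠ 0 → b ^ e * a = 1 := by
    intro a
    by_cases ha : a = 0
    · exact ⟨0, fun h => absurd ha h⟩
    · obtain ⟨b, hb⟩ := IsAlgClosed.exists_pow_nat_eq (a⁻¹) he0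
      exact ⟨b, fun _ => by rw [hb, inv_mul_cancel₀ ha]⟩
  choose μ hμ using hroot
  obtain ⟨s, hs⟩ : ∃ s : Finset k, s = (minpoly k f).roots.toFinset := ⟨_, rfl⟩
  obtain ⟨q, hq⟩ : ∃ q : k[X], ∀ a ∈ s, q.eval a = μ a := by
    refine ⟨Lagrange.interpolate s id μ, fun a ha => ?_⟩
    exact Lagrange.eval_interpolate_at_node (s := s) (v := id) (i := a) μ (Set.injOn_id _) ha
  obtain ⟨ρ, hρ⟩ : ∃ ρ : k[X], ρ = ∏ a ∈ s, (X - C a) := ⟨_, rfl⟩
  have hdiv : minpoly k f ∣ ρ ^ (minpoly k f).roots.card := by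
    have hsp : (minpoly k f).Splits := IsAlgClosed.splits _
    have h1 : minpoly k f = ((minpoly k f).roots.map fun a => X - C a).prod :=
      hsp.eq_prod_roots_of_monic (minpoly.monic hint)
    have h2 : ((minpoly k f).roots.map fun a => X - C a).prod ∣
        ρ ^ (minpoly k f).roots.card := by
      refine prod_dvd_pow ρ _ fun a ha => ?_
      rw [hρ]
      exact Finset.dvd_prod_of_mem (fun a => X - C a)
        (by rw [hs]; exact Multiset.mem_toFinset.mpr ha)
    rwa [← h1] at h2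
  have hdiv2 : ρ ∣ q ^ e * X - 1 := by
    rw [hρ]
    refine Finset.prod_dvd_of_coprime ?_ ?_
    · intro a _ b _ hab
      exact isCoprime_X_sub_C_of_isUnit_sub (IsUnit.mk0 _ (sub_ne_zero.mpr hab))
    · intro a ha
      rw [dvd_iff_isRoot, IsRoot.def]
      have ha0 : a ≠ 0 := by
        rintro rfl
        rw [hs] at ha
        exact h0 ((mem_roots hm0).mp (Multiset.mem_toFinset.mp ha))
      rw [eval_sub, eval_mul, eval_pow, eval_X, eval_one, hq a ha, hμ a ha0, sub_self]
  have hnil : IsNilpotent (aeval f (q ^ e * X - 1)) := by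
    refine ⟨(minpoly k f).roots.card, ?_⟩
    obtain ⟨w, hw⟩ := hdiv2
    obtain ⟨w', hw'⟩ := hdiv
    rw [← map_pow, hw, mul_pow, hw', map_mul, map_mul, minpoly.aeval, zero_mul, zero_mul]
  obtain ⟨M, hM⟩ := hnil
  -- `(1 + N) ^ (p ^ M) = 1`
  have hpow : (aeval f (q ^ e * X)) ^ (p ^ M) = 1 := by
    have h1 : (q ^ e * X) ^ (p ^ M) = (q ^ e * X - 1) ^ (p ^ M) + 1 := by
      have : CharP k[X] p := inferInstance
      rw [sub_pow_char_pow, one_pow, sub_add_cancel]
    rw [← map_pow, h1, map_add, map_pow, map_one]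
    have h2 : M ≤ p ^ M := (Nat.lt_pow_self hp.one_lt).le
    rw [← Nat.add_sub_cancel' h2, pow_add, hM, zero_mul, zero_add]
  -- `b e + 1 = p ^ M * c`
  obtain ⟨b, c, hbc⟩ : ∃ b c : ℕ, b * e + 1 = p ^ M * c := by
    have hcop : Nat.Coprime e (p ^ M) := Nat.Coprime.pow_right M he
    obtain ⟨x, hx1, hx2⟩ := Nat.chineseRemainder hcop 1 0
    have hpos : 0 < e * p ^ M := Nat.mul_pos he0 (pow_pos hp.pos M)
    have h1 : e ∣ (x + e * p ^ M) - 1 := by
      have h3 : x + e * p ^ M ≡ 1 [MOD e] := by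
        have := Nat.ModEq.add hx1 (Nat.modEq_zero_iff_dvd.mpr (Dvd.intro (p ^ M) rfl))
        simpa using this
      exact (Nat.modEq_iff_dvd' (by omega)).mp h3.symm
    have h2 : p ^ M ∣ x + e * p ^ M :=
      Dvd.dvd.add (Nat.modEq_zero_iff_dvd.mp hx2) (Dvd.intro_left e rfl)
    obtain ⟨b, hb⟩ := h1
    obtain ⟨c, hc⟩ := h2
    refine ⟨b, c, ?_⟩
    rw [← hc, mul_comm b e, ← hb]
    omega
  refine ⟨aeval f (q * (q ^ e * X) ^ b), ?_, ?_⟩
  · exact aeval_mem_adjoin_singleton k f
  · have h1 : (q * (q ^ e * X) ^ b) ^ e * X = (q ^ e * X) ^ (b * e + 1) := by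
      rw [mul_pow, ← pow_mul, pow_succ]
      ring
    have h2 : (aeval f (q * (q ^ e * X) ^ b)) ^ e * f = aeval f ((q ^ e * X) ^ (b * e + 1)) := by
      rw [← h1, map_mul (aeval f) ((q * (q ^ e * X) ^ b) ^ e) X, map_pow, aeval_X]
    rw [h2, hbc, pow_mul, map_pow, map_pow, hpow, one_pow]

end Vale.P179.H815
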