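import Vale.Agent.P179.H815.Num3
import Vale.Agent.P179.H815.Co7
import Vale.Agent.P179.H300.EP5
import Vale.Agent.P179.Sgn.Defs

/-!
# Numbers (SIGNATURE project), part 4: (A3) and the data of `Sgn/Defs`
-/

namespace Vale.P179.H815

open Module Vale.P179.H175 Vale.P179.H904 Vale.P179.H445 Vale.P179.Sgn Matrix
open scoped TensorProduct

variable {K A B Γ : Type} [Field K] [Ring A] [Algebra K A] [Ring B] [Algebra K B] [Group Γ]
  [Fintype Γ] (D : KData K A B Γ)

/-- Balanced maps and the separability element. -/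
theorem sep_bal {M : Type} [AddCommGroup M] [Module K M] (β : B →ₗ[K] B →ₗ[K] M)
    (hβ : ∀ (h : A) (b b' : B), β (b * D.ι h) b' = β b (D.ι h * b')) (b : B) :
    ∑ a, β (b * D.s a) (D.t a) = ∑ a, β (D.s a) (D.t a * b) := by
  have h1 : ∀ z ∈ Submodule.span K {z : B ⊗[K] B | ∃ (x y : B) (h : A),
      z = (x * D.ι h) ⊗ₜ[K] y - x ⊗ₜ[K] (D.ι h * y)}, TensorProduct.lift β z = 0 := by
    intro z hz
    induction hz using Submodule.span_induction with
    | mem z hz =>
      obtain ⟨x, y, h, rfl⟩ := hz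
      rw [map_sub, TensorProduct.lift.tmul, TensorProduct.lift.tmul, hβ, sub_self]
    | zero => simp
    | add y z _ _ hy hz => rw [map_add, hy, hz, add_zero]
    | smul c z _ hz => rw [map_smul, hz, smul_zero]
  have h2 := h1 _ (D.sep b)
  rw [map_sub, map_sum, map_sum] at h2
  simp only [TensorProduct.lift.tmul] at h2
  exact sub_eq_zero.mp h2

/-- The data of the coinduction module. -/
def cdata : Co.CData D.γ D.ι where
  span := D.span
  rho := D.ρ
  rho_i := D.rel.ret
  rho_left := D.rel.left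
  rho_right := fun b h => D.rel.right h b
  theta := D.θ
  htheta := D.rel.hig
  n := D.m
  s := D.s
  t := D.t
  hst := D.st
  hbal := fun _ _ _ β hβ b => sep_bal D β hβ b

/-- 300's families in 843's letters. -/
theorem hfam_of {e M c : ℕ} [NeZero e] (H : HGr K A Γ D.γ e M c) {W : ℚ → Submodule K B}
    {E : B} {n : ℕ} {i : Fin n → ZMod e} {r : Fin n → ℚ} {x : Fin n → B}
    (h : H300.LFam D.ι W H.ε E i r x) : Co.HFam D.ι W E x r (fun k => H.ε (i k)) where
  xe := h.right
  ax := h.left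
  deg := h.mem
  span := fun b hb => by
    obtain ⟨c, h1, h2⟩ := h.span b hb
    exact ⟨c, h1, h2.symm⟩
  inj := h.inj

/-- **(A3)** of the signature argument. -/
theorem a3 [FiniteDimensional K B] {e M c : ℕ} [NeZero e] (H : HGr K A Γ D.γ e M c)
    {W : ℚ → Submodule K B} {J : Submodule K B} {n : ℕ} {E : Fin n → B} (hB : Basic W J E)
    (hι : ∀ r : ℚ, ∀ h ∈ H.W r, D.ι h ∈ W r) {ν : Fin n → ℕ} {i : ∀ m, Fin (ν m) → ZMod e}
    {r : ∀ m, Fin (ν m) → ℚ} {x : ∀ m, Fin (ν m) → B}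
    (hfam : ∀ m, H300.LFam D.ι W H.ε (E m) (i m) (r m) (x m)) :
    ∃ z : Matrix (Fin n) (Fin n) ZQ,
      ct (Matrix.of fun b m => H300.mult (i m) (r m) b) *
        ymat W J E (fun a => D.ι (H.ε a)) = 1 + cmat W E * z := by
  have hfd : ∀ j, FiniteDimensional K (B ⧸ QM J hB.mulL (E j)) := fun j =>
    Module.Finite.of_surjective (mkK hB.mulL (E j)) (mkK_surjective hB.mulL (E j))
  have hV : ∀ j, GrMod W (QMV hB.mulL (E j) W) := fun j =>
    grMod_QM hB.mulL (E j) hB.gr hB.hom (hB.deg j)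
  let C := cdata D
  refine ⟨Matrix.of fun j' j =>
    gd (C.VQ hB.gr (hV j) H.basic.gr.int hι)
        (cor1 K ↥(C.KQ hB.gr (hV j) H.basic.gr.int hι) (E j')) -
      gd (C.VQ hB.gr (hV j) H.basic.gr.int hι)
        (spn J (⊤ : Submodule K ↥(C.KQ hB.gr (hV j) H.basic.gr.int hι)) ⊓
          cor1 K ↥(C.KQ hB.gr (hV j) H.basic.gr.int hι) (E j')), ?_⟩
  refine Matrix.ext fun m j => ?_
  have h0 : FiniteDimensional K ↥(C.KQ hB.gr (hV j) H.basic.gr.int hι) :=
    inferInstanceAs (FiniteDimensional K ↥((C.KQ hB.gr (hV j) H.basic.gr.int hι).restrictScalars K))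
  have hproj := C.projective_KQ hB.gr (hV j) H.basic.gr.int hι
  -- the left hand side
  have h1 : (ct (Matrix.of fun b m => H300.mult (i m) (r m) b) *
      ymat W J E (fun a => D.ι (H.ε a))) m j =
      gd (Co.VC D.ι W (QMV hB.mulL (E j) W))
        (cor1 K (Co.Coind D.ι (B ⧸ QM J hB.mulL (E j))) (E m)) := by
    rw [ct_mul_fam (u := Matrix.of fun b m => H300.mult (i m) (r m) b) m (a := i m) (r := r m)
        (fun b => rfl),
      Co.gd_cor1_coind hB.gr (hV j) H.basic.gr hι (hB.deg m) (hB.idem m)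
        (fun k => H.basic.deg _) (fun k => H.basic.idem _) (hfam_of D H (hfam m))]
    refine Finset.sum_congr rfl fun k _ => ?_
    rw [gd_QM hB.mulL (E j) hB.gr hB.hom (hB.deg j) (hB.idem j)
      (hι 0 _ (H.basic.deg (i m k))) (by rw [← map_mul, H.basic.idem])]
    rfl
  rw [h1, C.gd_coind hB.gr (hV j) H.basic.gr.int hι (E m), gd_simpleQM hB,
    H300.gd_cor1_projective hB (C.grMod_VQ hB.gr (hV j) H.basic.gr.int hι) (hB.deg m)
      (hB.idem m), Matrix.add_apply, Matrix.mul_apply, Matrix.one_apply]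
  rfl

end Vale.P179.H815
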