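import Vale.Agent.P179.H815.Num1
import Vale.Agent.P179.H904.Asm

/-!
# Numbers (SIGNATURE project), part 2: (A1), (A2) and the inequality

`L1 W J e` is the statement of helper175 (graded dimension of a corner of a graded module),
`num_core` is the final numerical theorem: everything about `B` enters through
graded dimensions.
-/

namespace Vale.P179.H815

open Module Vale.P179.H175 Vale.P179.H904 Matrix

open scoped ComplexOrder

universe u

variable {K : Type*} [Field K] {A : Type u} [Ring A] [Algebra K A]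

/-- (L1): graded dimensions of corners of graded modules. -/
def L1 {I : Type*} [Fintype I] (W : ℚ → Submodule K A) (J : Submodule K A) (e : I → A) : Prop :=
  ∀ (X : Type u) [AddCommGroup X] [Module K X] [Module A X] [IsScalarTower K A X]
    [FiniteDimensional K X] (V : ℚ → Submodule K X), GrMod W V →
    ∀ ε : A, ε ∈ W 0 → ε * ε = ε →
      gd V (cor1 K X ε) =
        ∑ i, (gd W (cor2 K ε (e i)) - gd W (J ⊓ cor2 K ε (e i))) * gd V (cor1 K X (e i))

variable {I : Type*} [Fintype I] {W : ℚ → Submodule K A} {J : Submodule K A} {e : I → A}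

/-- (L1) for the left ideals `A η`. -/
theorem L1.two [FiniteDimensional K A] (h : L1 W J e) (hW : GrAlg W)
    (he : ∀ i, e i ∈ W 0) (he2 : ∀ i, e i * e i = e i) {ε η : A}
    (hε0 : ε ∈ W 0) (hε : ε * ε = ε) (hη0 : η ∈ W 0) (hη : η * η = η) :
    gd W (cor2 K ε η) =
      ∑ i, (gd W (cor2 K ε (e i)) - gd W (J ⊓ cor2 K ε (e i))) * gd W (cor2 K (e i) η) := by
  have hJ0 : ∀ a : A, ∀ j ∈ (⊥ : Submodule K A), a * j ∈ (⊥ : Submodule K A) := by
    intro a j hj
    rw [Submodule.mem_bot] at hj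
    rw [hj, mul_zero]
    exact Submodule.zero_mem _
  have hh : Homog W (⊥ : Submodule K A) := fun x hx r => by
    rw [Submodule.mem_bot] at hx
    rw [hx, map_zero]
    exact Submodule.zero_mem _
  have hfd : FiniteDimensional K (A ⧸ QM (⊥ : Submodule K A) hJ0 η) :=
    Module.Finite.of_surjective (mkK hJ0 η) (mkK_surjective hJ0 η)
  have h1 := h (A ⧸ QM (⊥ : Submodule K A) hJ0 η) (QMV hJ0 η W)
    (grMod_QM hJ0 η hW hh hη0) ε hε0 hε
  rw [gd_QM_bot η hW hη0 hη hε0 hε] at h1
  rw [h1]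
  exact Finset.sum_congr rfl fun i _ => by rw [gd_QM_bot η hW hη0 hη (he i) (he2 i)]

/-- The matrix `y`. -/
noncomputable def ymat {κ : Type*} (W : ℚ → Submodule K A) (J : Submodule K A) (e : I → A)
    (η : κ → A) : Matrix κ I ZQ :=
  Matrix.of fun a i => gd W (cor2 K (η a) (e i)) - gd W (J ⊓ cor2 K (η a) (e i))

/-- The Cartan matrix. -/
noncomputable def cmat (W : ℚ → Submodule K A) (e : I → A) : Matrix I I ZQ :=
  Matrix.of fun i j => gd W (cor2 K (e i) (e j))

theorem det_CHz_ne {d N M c : ℕ} [NeZero d] (hM : N = d * M + 1) :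
    (CHz d N c).det ≠ 0 := by
  have h1 := Vale.Agent.P179.H737.HN_posDef (e := d) hM (c := (c : ℝ)) (by positivity)
  rw [← ev_CHz, ev_smul] at h1
  have h2 : (ev 0 (CHz d N c)).PosDef := by simpa using h1
  intro h
  have h3 := h2.det_pos
  rw [ev_det, h, map_zero] at h3
  exact lt_irrefl _ h3

/-- **The numerical theorem.** -/
theorem num_core [DecidableEq I] [FiniteDimensional K A] (hL1 : L1 W J e) (hW : GrAlg W)
    (he : ∀ i, e i ∈ W 0) (he2 : ∀ i, e i * e i = e i)
    {d N M c : ℕ} [NeZero d] (hM : N = d * M + 1) (hM1 : 1 ≤ M) (η : ZMod d → A)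
    (hη : ∀ a, η a ∈ W 0) (hη2 : ∀ a, η a * η a = η a)
    (T2 : ∀ x y : A, x ∈ W 0 → y ∈ W 0 → x * x = x → y * y = y →
      gd W (cor2 K x y) = tq ((N : ℚ) - 1) * barQ (gd W (cor2 K y x)))
    {u : Matrix (ZMod d) I ZQ}
    (EP2 : ∀ a m, gd W (cor2 K (η a) (e m)) = ∑ b, CHz d N c a b * u b m)
    {Wm : Matrix (ZMod d) (ZMod d) ZQ}
    (EP3 : ∀ a b, gd W (cor2 K (η a) (η b)) = CHz d N c a b + (CHz d N c * Wm * CHz d N c) a b)
    {z : Matrix I I ZQ}
    (A3 : ct u * ymat W J e η = 1 + cmat W e * z) :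
    d ≤ Fintype.card I := by
  have A4 : ct (cmat W e) = tq (-((N : ℚ) - 1)) • cmat W e := by
    refine Matrix.ext fun i j => ?_
    rw [ct_apply, Matrix.smul_apply, smul_eq_mul]
    change barQ (gd W (cor2 K (e j) (e i))) = tq (-((N : ℚ) - 1)) * gd W (cor2 K (e i) (e j))
    rw [T2 (e i) (e j) (he i) (he j) (he2 i) (he2 j), ← mul_assoc, tq_mul, neg_add_cancel,
      tq_zero, one_mul]
  have A1 : CHz d N c * u = ymat W J e η * cmat W e := by
    refine Matrix.ext fun a m => ?_
    rw [Matrix.mul_apply, ← EP2, Matrix.mul_apply]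
    exact hL1.two hW he he2 (hη a) (hη2 a) (he m) (he2 m)
  have hN' : ∀ i b, gd W (cor2 K (e i) (η b)) = (ct u * CHz d N c) i b := by
    intro i b
    rw [T2 (e i) (η b) (he i) (hη b) (he2 i) (hη2 b), EP2, map_sum, Matrix.mul_apply,
      Finset.mul_sum]
    refine Finset.sum_congr rfl fun c' _ => ?_
    have h1 := congrFun (congrFun (ct_CHz hM c) c') b
    rw [ct_apply, Matrix.smul_apply, smul_eq_mul] at h1
    rw [map_mul, h1, ct_apply, ← mul_assoc, ← mul_assoc, tq_mul, add_neg_cancel, tq_zero,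
      one_mul, mul_comm]
  have A2 : ymat W J e η * ct u = 1 + CHz d N c * Wm := by
    apply right_cancel (det_CHz_ne (c := c) hM)
    rw [Matrix.mul_assoc, Matrix.add_mul, Matrix.one_mul]
    refine Matrix.ext fun a b => ?_
    rw [Matrix.add_apply, ← EP3, Matrix.mul_apply,
      hL1.two hW he he2 (hη a) (hη2 a) (hη b) (hη2 b)]
    exact Finset.sum_congr rfl fun i _ => by rw [hN']; rfl
  exact e_le_card hM hM1 A4 A1 A2 A3

end Vale.P179.H815
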