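import Vale.Agent.P179.H175.GrDefs
import Vale.Agent.P179.H904.Sig2

/-!
# Numbers (SIGNATURE project), part 1: graded dimensions of corners

* `gd_congr` : graded dimensions are determined by the dimensions of the components;
* `coeff_gd` : the Laurent coefficients of a graded dimension;
* `lid`, `lidV` : the left ideal `A η` as a graded module, `gd_lid`;
* `gd_twist` : `dim (e A_r f) = dim (f A_{N-r} e)` in terms of Laurent polynomials.
-/

namespace Vale.P179.H815

open Module Vale.P179.H175 Vale.P179.H904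

variable {K : Type*} [Field K]

section space

variable {X : Type*} [AddCommGroup X] [Module K X] {Y : Type*} [AddCommGroup Y] [Module K Y]

theorem gd_congr {V : ℚ → Submodule K X} {U : Submodule K X} {V' : ℚ → Submodule K Y}
    {U' : Submodule K Y}
    (h : ∀ r, finrank K ↥(U ⊓ V r) = finrank K ↥(U' ⊓ V' r)) : gd V U = gd V' U' := by
  unfold gd
  simp_rw [h]

/-- Finite support of a grading of a finite dimensional space. -/
theorem finite_support [FiniteDimensional K X] {V : ℚ → Submodule K X}
    (hV : iSupIndep V) : {r | V r ≠ ⊥}.Finite :=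
  WellFoundedGT.finite_ne_bot_of_iSupIndep hV

theorem finite_support_inf [FiniteDimensional K X] {V : ℚ → Submodule K X}
    (hV : iSupIndep V) (U : Submodule K X) :
    (Function.support fun r => AddMonoidAlgebra.single r (finrank K ↥(U ⊓ V r) : ℤ) :
      Set ℚ).Finite := by
  refine (finite_support hV).subset fun r hr h => hr ?_
  have : U ⊓ V r = ⊥ := by rw [h]; simp
  simp [this]

theorem coeff_finsetSum (S : Finset ℚ) (f : ℚ → ℤ) (r : ℚ) :
    (∑ x ∈ S, AddMonoidAlgebra.single x (f x) : AddMonoidAlgebra ℤ ℚ).coeff r =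
      if r ∈ S then f r else 0 := by
  rw [AddMonoidAlgebra.coeff_sum]
  simp [Finsupp.single_apply]

/-- Laurent coefficients of the graded dimension. -/
theorem coeff_gd [FiniteDimensional K X] {V : ℚ → Submodule K X} (hV : iSupIndep V)
    (U : Submodule K X) (r : ℚ) : (gd V U).coeff r = (finrank K ↥(U ⊓ V r) : ℤ) := by
  classical
  unfold gd
  rw [finsum_eq_sum_of_support_subset (s := (finite_support_inf hV U).toFinset) _
    (by simp), coeff_finsetSum]
  split_ifs with h
  · rfl
  · simp only [Set.Finite.mem_toFinset, Function.mem_support, ne_eq, not_not] at h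
    have := congrArg (fun f => (AddMonoidAlgebra.coeff f) r) h
    simpa using this.symm

theorem coeff_ext {f g : AddMonoidAlgebra ℤ ℚ} (h : ∀ r, f.coeff r = g.coeff r) : f = g := by
  apply AddMonoidAlgebra.coeff_injective
  ext r
  exact h r

theorem coeff_barQ (f : AddMonoidAlgebra ℤ ℚ) (r : ℚ) : (barQ f).coeff r = f.coeff (-r) := by
  induction f using AddMonoidAlgebra.induction_linear with
  | zero => simp
  | add f g hf hg => simp [hf, hg]
  | single s n =>
    rw [barQ_single, AddMonoidAlgebra.coeff_single, AddMonoidAlgebra.coeff_single,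
      Finsupp.single_apply, Finsupp.single_apply]
    congr 1
    exact propext ⟨fun h => by rw [← h]; ring, fun h => by rw [h]; ring⟩

theorem coeff_tq_mul (N : ℚ) (f : AddMonoidAlgebra ℤ ℚ) (r : ℚ) :
    (tq N * f).coeff r = f.coeff (r - N) := by
  induction f using AddMonoidAlgebra.induction_linear with
  | zero => simp
  | add f g hf hg => simp [mul_add, hf, hg]
  | single s n =>
    rw [tq, AddMonoidAlgebra.single_mul_single, AddMonoidAlgebra.coeff_single,
      AddMonoidAlgebra.coeff_single, Finsupp.single_apply, Finsupp.single_apply, one_mul]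
    congr 1
    exact propext ⟨fun h => by rw [← h]; ring, fun h => by rw [h]; ring⟩

/-- Duality of graded dimensions. -/
theorem gd_dual [FiniteDimensional K X] [FiniteDimensional K Y] {V : ℚ → Submodule K X}
    (hV : iSupIndep V) {U : Submodule K X} {V' : ℚ → Submodule K Y} (hV' : iSupIndep V')
    {U' : Submodule K Y} {N : ℚ}
    (h : ∀ r, finrank K ↥(U ⊓ V r) = finrank K ↥(U' ⊓ V' (N - r))) :
    gd V U = tq N * barQ (gd V' U') := by
  apply coeff_ext
  intro r
  rw [coeff_gd hV, coeff_tq_mul, coeff_barQ, coeff_gd hV', h, neg_sub]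

end space

section cpt

variable {X : Type*} [AddCommGroup X] [Module K X] {Y : Type*} [AddCommGroup Y] [Module K Y]
variable {V : ℚ → Submodule K X} {V' : ℚ → Submodule K Y}

theorem cpt_apply (hV : DirectSum.IsInternal V) (r : ℚ) (x : X) :
    cpt V r x = (((LinearEquiv.ofBijective (DirectSum.coeLinearMap V) hV).symm x) r : X) := by
  classical
  unfold cpt
  have h : DirectSum.IsInternal V := hV
  simp only [dif_pos h]
  rfl

theorem cpt_mem (hV : DirectSum.IsInternal V) (r : ℚ) (x : X) : cpt V r x ∈ V r := by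
  rw [cpt_apply hV]
  exact Submodule.coe_mem _

theorem cpt_of_mem (hV : DirectSum.IsInternal V) {s : ℚ} {x : X} (hx : x ∈ V s) (r : ℚ) :
    cpt V r x = if s = r then x else 0 := by
  classical
  rw [cpt_apply hV]
  have h1 : (LinearEquiv.ofBijective (DirectSum.coeLinearMap V) hV).symm x =
      DirectSum.lof K ℚ (fun r => V r) s ⟨x, hx⟩ := by
    rw [LinearEquiv.symm_apply_eq]
    change x = DirectSum.coeLinearMap V (DirectSum.lof K ℚ (fun r => V r) s ⟨x, hx⟩)
    rw [DirectSum.coeLinearMap_lof]
  rw [h1, DirectSum.lof_eq_of]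
  split_ifs with h
  · subst h
    rw [DirectSum.of_eq_same]
  · rw [DirectSum.of_eq_of_ne _ _ _ (Ne.symm h)]
    rfl

theorem induction_gr (hV : DirectSum.IsInternal V) {P : X → Prop}
    (hmem : ∀ s x, x ∈ V s → P x) (hadd : ∀ x y, P x → P y → P (x + y)) (x : X) : P x := by
  classical
  have htop : x ∈ iSup V := by
    rw [hV.submodule_iSup_eq_top]
    trivial
  refine Submodule.iSup_induction V (motive := P) htop hmem ?_ hadd
  exact hmem 0 0 (zero_mem _)

theorem cpt_map (hV : DirectSum.IsInternal V) (hV' : DirectSum.IsInternal V')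
    (T : X →ₗ[K] Y) (hT : ∀ s x, x ∈ V s → T x ∈ V' s) (r : ℚ) (x : X) :
    cpt V' r (T x) = T (cpt V r x) := by
  refine induction_gr hV (P := fun x => cpt V' r (T x) = T (cpt V r x)) ?_ ?_ x
  · intro s x hx
    rw [cpt_of_mem hV hx, cpt_of_mem hV' (hT s x hx)]
    split_ifs <;> simp
  · intro x y hx hy
    rw [map_add, map_add, hx, hy, map_add, map_add]

theorem finite_cpt (hV : DirectSum.IsInternal V) (x : X) : {r | cpt V r x ≠ 0}.Finite := by
  classical
  refine induction_gr hV (P := fun x => {r | cpt V r x ≠ 0}.Finite) ?_ ?_ x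
  · intro s x hx
    refine (Set.finite_singleton s).subset fun r hr => ?_
    by_contra h
    apply hr
    rw [cpt_of_mem hV hx, if_neg]
    exact fun h' => h h'.symm
  · intro x y hx hy
    refine (hx.union hy).subset fun r hr => ?_
    by_contra h
    simp only [Set.mem_union, Set.mem_ofPred_eq, not_or, not_not] at h
    apply hr
    rw [map_add, h.1, h.2, add_zero]

theorem sum_cpt (hV : DirectSum.IsInternal V) (x : X) : ∑ᶠ r, cpt V r x = x := by
  classical
  refine induction_gr hV (P := fun x => ∑ᶠ r, cpt V r x = x) ?_ ?_ x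
  · intro s x hx
    rw [finsum_eq_single _ s (fun r hr => by rw [cpt_of_mem hV hx, if_neg (Ne.symm hr)]),
      cpt_of_mem hV hx, if_pos rfl]
  · intro x y hx hy
    simp_rw [map_add]
    rw [finsum_add_distrib (finite_cpt hV x) (finite_cpt hV y), hx, hy]

/-- The image of a grading under a surjection with homogeneous kernel. -/
theorem internal_map (hV : DirectSum.IsInternal V) (T : X →ₗ[K] Y)
    (hT : Function.Surjective T) (hker : Homog V (LinearMap.ker T)) :
    DirectSum.IsInternal (fun r => (V r).map T) := by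
  classical
  rw [DirectSum.isInternal_submodule_iff_iSupIndep_and_iSup_eq_top]
  constructor
  · rw [iSupIndep_iff_finsetSum_eq_zero_imp_eq_zero]
    intro S v hv hsum r hr
    choose! w hw using fun i (hi : i ∈ S) => Submodule.mem_map.mp (hv i hi)
    have h1 : (∑ i ∈ S, w i) ∈ LinearMap.ker T := by
      rw [LinearMap.mem_ker, map_sum, ← hsum]
      exact Finset.sum_congr rfl fun i hi => (hw i hi).2
    have h2 := hker _ h1 r
    have h3 : cpt V r (∑ i ∈ S, w i) = w r := by
      rw [map_sum, Finset.sum_eq_single r]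
      · rw [cpt_of_mem hV (hw r hr).1, if_pos rfl]
      · intro i hi hir
        rw [cpt_of_mem hV (hw i hi).1, if_neg hir]
      · exact fun h => absurd hr h
    rw [h3, LinearMap.mem_ker, (hw r hr).2] at h2
    exact h2
  · rw [← Submodule.map_iSup, hV.submodule_iSup_eq_top, Submodule.map_top,
      LinearMap.range_eq_top.mpr hT]

end cpt

section qm

variable {A : Type*} [Ring A] [Algebra K A]

/-- The left ideal `{x | x η ∈ J}`; the quotient is `A η / (J ∩ A η)`. -/
def QM (J : Submodule K A) (hJ : ∀ a : A, ∀ j ∈ J, a * j ∈ J) (η : A) : Submodule A A where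
  carrier := {x | x * η ∈ J}
  add_mem' := fun {x y} hx hy => by
    change (x + y) * η ∈ J
    rw [add_mul]
    exact J.add_mem hx hy
  zero_mem' := by
    change 0 * η ∈ J
    rw [zero_mul]
    exact J.zero_mem
  smul_mem' := fun c x hx => by
    change c * x * η ∈ J
    rw [mul_assoc]
    exact hJ c _ hx

variable {J : Submodule K A} (hJ : ∀ a : A, ∀ j ∈ J, a * j ∈ J) (η : A)

theorem mem_QM {x : A} : x ∈ QM J hJ η ↔ x * η ∈ J := Iff.rfl

/-- The quotient map, `K`-linear. -/
def mkK : A →ₗ[K] (A ⧸ QM J hJ η) where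
  toFun x := Submodule.Quotient.mk x
  map_add' _ _ := rfl
  map_smul' _ _ := rfl

theorem mkK_apply (x : A) : mkK hJ η x = Submodule.Quotient.mk x := rfl

theorem mkK_surjective : Function.Surjective (mkK hJ η) := by
  intro s
  induction s using Submodule.Quotient.induction_on with
  | H x => exact ⟨x, rfl⟩

theorem mkK_eq_zero {x : A} : mkK hJ η x = 0 ↔ x * η ∈ J := by
  rw [mkK_apply, Submodule.Quotient.mk_eq_zero]
  exact mem_QM hJ η

theorem mkK_eq {x y : A} : mkK hJ η x = mkK hJ η y ↔ (x - y) * η ∈ J := by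
  rw [← sub_eq_zero, ← map_sub, mkK_eq_zero]

theorem smul_mkK (a x : A) : a • mkK hJ η x = mkK hJ η (a * x) := rfl

/-- The grading of the quotient. -/
def QMV (W : ℚ → Submodule K A) (r : ℚ) : Submodule K (A ⧸ QM J hJ η) :=
  (W r).map (mkK hJ η)

variable {W : ℚ → Submodule K A}

theorem mem_QMV {r : ℚ} {s : A ⧸ QM J hJ η} :
    s ∈ QMV hJ η W r ↔ ∃ b ∈ W r, mkK hJ η b = s := Iff.rfl

theorem grMod_QM (hW : GrAlg W) (hJh : Homog W J) (h0 : η ∈ W 0) :
    GrMod W (QMV hJ η W) where
  int := by
    refine internal_map hW.int (mkK hJ η) (mkK_surjective hJ η) ?_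
    intro x hx r
    rw [LinearMap.mem_ker, mkK_eq_zero] at hx ⊢
    have h1 : cpt W r (x * η) = cpt W r x * η := by
      have := cpt_map hW.int hW.int (LinearMap.mulRight K η) (fun s x hx => by
        have := hW.mul hx h0
        rwa [add_zero] at this) r x
      simpa using this
    rw [← h1]
    exact hJh _ hx r
  smul := by
    intro r s a x ha hx
    obtain ⟨b, hb, rfl⟩ := (mem_QMV hJ η).mp hx
    rw [smul_mkK]
    exact (mem_QMV hJ η).mpr ⟨a * b, hW.mul ha hb, rfl⟩

theorem finrank_map_add (S : Submodule K A) [FiniteDimensional K A] {Y : Type*}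
    [AddCommGroup Y] [Module K Y] (f : A →ₗ[K] Y) :
    finrank K (S.map f) + finrank K ↥(S ⊓ LinearMap.ker f) = finrank K S := by
  have h1 := LinearMap.finrank_range_add_finrank_ker (f.domRestrict S)
  rw [LinearMap.range_domRestrict] at h1
  have h2 : finrank K ↥(LinearMap.ker (f.domRestrict S)) =
      finrank K ↥(S ⊓ LinearMap.ker f) := by
    have e1 := (Submodule.equivMapOfInjective S.subtype S.injective_subtype
      (LinearMap.ker (f.domRestrict S))).finrank_eq
    rw [e1]
    have e2 : (LinearMap.ker (f.domRestrict S)).map S.subtype = S ⊓ LinearMap.ker f := by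
      rw [LinearMap.ker_domRestrict]
      simp [Submodule.map_comap_eq]
    rw [e2]
  rw [← h2]
  exact h1

/-- The graded dimensions of the corners of `A η / (J ∩ A η)`. -/
theorem gd_QM [FiniteDimensional K A] (hW : GrAlg W) (hJh : Homog W J) (h0 : η ∈ W 0)
    (hη : η * η = η) {ε : A} (hε0 : ε ∈ W 0) (hε : ε * ε = ε) :
    gd (QMV hJ η W) (cor1 K (A ⧸ QM J hJ η) ε) =
      gd W (cor2 K ε η) - gd W (J ⊓ cor2 K ε η) := by
  have hfd : FiniteDimensional K (A ⧸ QM J hJ η) :=
    Module.Finite.of_surjective (mkK hJ η) (mkK_surjective hJ η)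
  have hV := (grMod_QM hJ η hW hJh h0).int
  apply coeff_ext
  intro r
  rw [AddMonoidAlgebra.coeff_sub, Finsupp.sub_apply, coeff_gd hV.submodule_iSupIndep,
    coeff_gd hW.int.submodule_iSupIndep, coeff_gd hW.int.submodule_iSupIndep]
  have key : (cor2 K ε η ⊓ W r).map (mkK hJ η) =
      cor1 K (A ⧸ QM J hJ η) ε ⊓ QMV hJ η W r := by
    ext s
    constructor
    · rintro ⟨b, ⟨hb1, hb2⟩, rfl⟩
      refine ⟨?_, b, hb2, rfl⟩
      change ε • mkK hJ η b = mkK hJ η b
      rw [smul_mkK, hb1.1]
    · rintro ⟨hs, b, hb, rfl⟩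
      refine ⟨ε * b * η, ⟨⟨?_, ?_⟩, ?_⟩, ?_⟩
      · rw [← mul_assoc, ← mul_assoc, hε]
      · rw [mul_assoc, hη]
      · have := hW.mul (hW.mul hε0 hb) h0
        rwa [zero_add, add_zero] at this
      · have h1 : ε • mkK hJ η b = mkK hJ η b := hs
        rw [smul_mkK] at h1
        rw [← h1, mkK_eq, sub_mul, mul_assoc (ε * b), hη, sub_self]
        exact J.zero_mem
  have hker : (cor2 K ε η ⊓ W r) ⊓ LinearMap.ker (mkK hJ η) = (J ⊓ cor2 K ε η) ⊓ W r := by
    ext b
    constructor
    · rintro ⟨⟨hb1, hb2⟩, hb3⟩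
      have h3 := (mkK_eq_zero hJ η).mp (LinearMap.mem_ker.mp hb3)
      rw [hb1.2] at h3
      exact ⟨⟨h3, hb1⟩, hb2⟩
    · rintro ⟨⟨hb1, hb2⟩, hb3⟩
      refine ⟨⟨hb2, hb3⟩, ?_⟩
      refine LinearMap.mem_ker.mpr ((mkK_eq_zero hJ η).mpr ?_)
      rw [hb2.2]
      exact hb1
  have h1 := finrank_map_add (cor2 K ε η ⊓ W r) (mkK hJ η)
  rw [key, hker] at h1
  have h2 : (finrank K ↥(cor1 K (A ⧸ QM J hJ η) ε ⊓ QMV hJ η W r) : ℤ) +
      (finrank K ↥(J ⊓ cor2 K ε η ⊓ W r) : ℤ) = (finrank K ↥(cor2 K ε η ⊓ W r) : ℤ) := by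
    exact_mod_cast h1
  linarith

/-- For `J = 0` the quotient is the left ideal `A η`. -/
theorem gd_QM_bot [FiniteDimensional K A] (hW : GrAlg W) (h0 : η ∈ W 0)
    (hη : η * η = η) {ε : A} (hε0 : ε ∈ W 0) (hε : ε * ε = ε) :
    gd (QMV (J := (⊥ : Submodule K A)) (fun a j hj => by
        rw [Submodule.mem_bot] at hj
        rw [hj, mul_zero]
        exact Submodule.zero_mem _) η W) (cor1 K (A ⧸ QM (⊥ : Submodule K A) _ η) ε) =
      gd W (cor2 K ε η) := by
  rw [gd_QM (J := (⊥ : Submodule K A)) _ η hW (fun x hx r => by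
    rw [Submodule.mem_bot] at hx
    rw [hx, map_zero]
    exact Submodule.zero_mem _) h0 hη hε0 hε]
  have : gd W ((⊥ : Submodule K A) ⊓ cor2 K ε η) = 0 := by
    apply coeff_ext
    intro r
    rw [coeff_gd hW.int.submodule_iSupIndep]
    simp
  rw [this, sub_zero]

end qm

end Vale.P179.H815
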