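import Vale.Agent.P179.H815.Num1
import Vale.Agent.P179.H737.RNum

/-!
# Lemma L (REL): definitions and the statement
-/

namespace Vale.P179.H815.LL

open Module Vale.P179.H175

/-- the left ideal generated by the `y - 1` -/
def LJ (K : Type*) [Field K] {L : Type*} [Ring L] [Algebra K L] (Y : Set L) : Submodule K L :=
  Submodule.span K {z | ∃ l : L, ∃ y ∈ Y, z = l * (y - 1)}

theorem mul_sub_mem_LJ {K : Type*} [Field K] {L : Type*} [Ring L] [Algebra K L] {Y : Set L}
    (l : L) {y : L} (hy : y ∈ Y) : l * (y - 1) ∈ LJ K Y :=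
  Submodule.subset_span ⟨l, y, hy, rfl⟩

theorem mul_mem_LJ {K : Type*} [Field K] {L : Type*} [Ring L] [Algebra K L] {Y : Set L}
    (a : L) {z : L} (hz : z ∈ LJ K Y) : a * z ∈ LJ K Y := by
  unfold LJ at hz
  induction hz using Submodule.span_induction with
  | mem z hz =>
    obtain ⟨l, y, hy, rfl⟩ := hz
    rw [← mul_assoc]
    exact mul_sub_mem_LJ _ hy
  | zero => rw [mul_zero]; exact Submodule.zero_mem _
  | add x y _ _ hx hy => rw [mul_add]; exact Submodule.add_mem _ hx hy
  | smul c x _ hx => rw [mul_smul_comm]; exact Submodule.smul_mem _ _ hx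

/-- `Hom(L / LJ Y, L / LJ Z)`, acting by right multiplication -/
def Mor (K : Type*) [Field K] {L : Type*} [Ring L] [Algebra K L] (Y Z : Set L) :
    Submodule K L where
  carrier := {b | ∀ y ∈ Y, (y - 1) * b ∈ LJ K Z}
  add_mem' := fun {a b} ha hb y hy => by
    rw [mul_add]; exact Submodule.add_mem _ (ha y hy) (hb y hy)
  zero_mem' := fun y _ => by rw [mul_zero]; exact Submodule.zero_mem _
  smul_mem' := fun c a ha y hy => by
    rw [mul_smul_comm]; exact Submodule.smul_mem _ _ (ha y hy)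

/-- the fixed points of `Y` -/
def fix (K : Type*) [Field K] {L : Type*} [Ring L] [Algebra K L] (X : Type*) [AddCommGroup X]
    [Module K X] [Module L X] [IsScalarTower K L X] (Y : Set L) : Submodule K X where
  carrier := {v | ∀ y ∈ Y, y • v = v}
  add_mem' := fun {a b} ha hb y hy => by rw [smul_add, ha y hy, hb y hy]
  zero_mem' := fun y _ => smul_zero _
  smul_mem' := fun c v hv y hy => by
    rw [smul_algebra_smul_comm, hv y hy]

/-- the space `{v ∈ X^Y | f v = v}` -/
def cl (K : Type*) [Field K] {L : Type*} [Ring L] [Algebra K L] (X : Type*) [AddCommGroup X]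
    [Module K X] [Module L X] [IsScalarTower K L X] (Y : Set L) (f : L) : Submodule K X :=
  fix K X Y ⊓ cor1 K X f

/-- the differences `y - 1` are homogeneous -/
def HomY {K : Type*} [Field K] {L : Type*} [Ring L] [Algebra K L] (W : ℚ → Submodule K L)
    (Y : Set L) : Prop := ∀ y ∈ Y, ∃ r, y - 1 ∈ W r

/-- The data of Lemma L: a graded algebra with a `P × P`-stable basis (`P` abelian, of degree
`0`, acted on by `T`), all stabilisers being `T`-twisted diagonal. -/
structure LDat (K L P T : Type) [Field K] [Ring L] [Algebra K L] [CommGroup P]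
    [CommGroup T] where
  /-- the grading -/
  W : ℚ → Submodule K L
  gr : GrAlg W
  /-- the group elements -/
  u : P →* L
  /-- the twisting elements -/
  n : T →* L
  /-- the action of `T` on `P` -/
  act : T →* MulAut P
  nu : ∀ t x, n t * u x = u (act t x) * n t
  u0 : ∀ x, u x ∈ W 0
  n0 : ∀ t, n t ∈ W 0
  /-- the index type of the basis -/
  I : Type
  fin : Fintype I
  /-- the permutation basis (need not be homogeneous) -/
  b : Basis I K L
  stab : ∀ x y i, ∃ j, u x * b i * u y = b j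
  tw : ∀ i, ∃ t, ∀ x y, u x * b i = b i * u y → x = act t y

/-- `F` is projective over `k[Q]` (Higman form). -/
def Adm {K L P : Type} [Field K] [Ring L] [Algebra K L] [CommGroup P] (u : P →* L)
    {ν : Type} (F : ν → Type) [∀ i, AddCommGroup (F i)] [∀ i, Module K (F i)]
    [∀ i, Module L (F i)] (Q : Subgroup P) : Prop :=
  ∀ i, ∃ h : F i →ₗ[K] F i, ∀ v, ∑ᶠ x : Q, u x • h (u (x : P)⁻¹ • v) = v

/-- the span of the classes of the projective modules -/
noncomputable def PP {K L : Type} [Field K] [Ring L] [Algebra K L] (W : ℚ → Submodule K L)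
    {ν : Type} (F : ν → Type) [∀ i, AddCommGroup (F i)] [∀ i, Module K (F i)]
    [∀ i, Module L (F i)] [∀ i, IsScalarTower K L (F i)] (V : ∀ i, ℚ → Submodule K (F i)) :
    Submodule H737.R.RQ (ν → H737.R.RQ) :=
  Submodule.span H737.R.RQ {c : ν → H737.R.RQ | ∃ a ∈ W 0, a * a = a ∧
    c = fun i => H737.R.emb (gd (V i) (cor1 K (F i) a))}

/-- **Lemma L** with the factorisation: the statement. -/
def LEMMAL : Prop := ∀ (p : ℕ) [Fact p.Prime] (K : Type) [Field K] [IsAlgClosed K] [CharP K p]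
  (L P T : Type) [Ring L] [Algebra K L] [FiniteDimensional K L] [CommGroup P] [Finite P]
  [CommGroup T] [Finite T], IsPGroup p P → ((Nat.card T : ℕ) : K) ≠ 0 →
  ∀ (d : LDat K L P T) (ν : Type) (F : ν → Type) [∀ i, AddCommGroup (F i)]
  [∀ i, Module K (F i)] [∀ i, Module L (F i)] [∀ i, IsScalarTower K L (F i)]
  [∀ i, FiniteDimensional K (F i)] (V : ∀ i, ℚ → Submodule K (F i)),
  (∀ i, GrMod d.W (V i)) → ∀ Y : Set L, HomY d.W Y → ∀ f ∈ d.W 0, f ∈ Mor K Y Y →
  f * f - f ∈ LJ K Y → ∀ (m : ℕ) (Q : Fin m → Subgroup P) (α β : Fin m → L),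
  (∀ j, Adm (K := K) d.u F (Q j)) →
  (∀ j, β j ∈ Mor K Y (d.u '' Q j)) → (∀ j, α j ∈ Mor K (d.u '' Q j) Y) →
  f - ∑ j, β j * α j ∈ LJ K Y →
  (fun i => H737.R.emb (gd (V i) (cl K (F i) Y f))) ∈ PP d.W F V

end Vale.P179.H815.LL
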