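import Vale.Agent.P179.H175.Fit

/-!
# Lemma L (REL), part 1: idempotents of subalgebras
-/

namespace Vale.P179.H815.LL

open Module Vale.P179.H175 Polynomial

variable {K : Type*} [Field K] {A : Type*} [Ring A] [Algebra K A]

/-- primitive idempotents of a subalgebra -/
structure PrimIn (E : Subalgebra K A) (ε : A) : Prop where
  mem : ε ∈ E
  idem : ε * ε = ε
  ne : ε ≠ 0
  prim : ∀ f ∈ E, f * f = f → ε * f = f → f * ε = f → f = 0 ∨ f = ε

/-- units of a corner -/
def UnitIn (E : Subalgebra K A) (ε y : A) : Prop :=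
  ∃ z ∈ E, ε * z = z ∧ z * ε = z ∧ y * z = ε ∧ z * y = ε

theorem aeval_mem' (E : Subalgebra K A) {y : A} (hy : y ∈ E) (q : K[X]) : aeval y q ∈ E := by
  have h := aeval_mem_adjoin_singleton K y (p := q)
  exact Algebra.adjoin_le (Set.singleton_subset_iff.2 hy) h

variable {E : Subalgebra K A} {ε : A}

theorem PrimIn.nil_or_unit [FiniteDimensional K A] (hε : PrimIn E ε) {y : A} (hy : y ∈ E)
    (hy1 : ε * y = y) (hy2 : y * ε = y) : IsNilpotent y ∨ UnitIn E ε y := by
  obtain ⟨q, n, h1, h2⟩ := exists_fit (K := K) y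
  have hc : aeval y q * y = y * aeval y q := by
    have h3 : aeval y (q * X) = aeval y (X * q) := by rw [mul_comm]
    rwa [map_mul, map_mul, aeval_X] at h3
  have hm : y * aeval y q ∈ E := E.mul_mem hy (aeval_mem' E hy q)
  rcases hε.prim (y * aeval y q) hm h1 (by rw [← mul_assoc, hy1])
    (by rw [← hc, mul_assoc, hy2]) with h | h
  · left
    rw [h, sub_zero, mul_one] at h2
    exact ⟨n, h2⟩
  · right
    refine ⟨ε * aeval y q * ε, E.mul_mem (E.mul_mem hε.mem (aeval_mem' E hy q)) hε.mem,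
      ?_, ?_, ?_, ?_⟩
    · rw [← mul_assoc, ← mul_assoc, hε.idem]
    · rw [mul_assoc, hε.idem]
    · rw [← mul_assoc, ← mul_assoc, hy2, h, hε.idem]
    · rw [mul_assoc, hy1, mul_assoc, hc, h, hε.idem]

theorem PrimIn.not_both [FiniteDimensional K A] (hε : PrimIn E ε) {y : A} (h : IsNilpotent y)
    (hy : ε * y = y) (hu : UnitIn E ε y) : False := by
  obtain ⟨z, -, -, -, -, h5⟩ := hu
  exact not_unit_of_nilpotent hε.ne hy h h5

/-- `1 - nilpotent` is a unit of the corner -/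
theorem PrimIn.unit_sub [FiniteDimensional K A] (hε : PrimIn E ε) {y : A} (hy : y ∈ E)
    (hy1 : ε * y = y) (hy2 : y * ε = y) (h : IsNilpotent y) : UnitIn E ε (ε - y) := by
  rcases hε.nil_or_unit (y := ε - y) (E.sub_mem hε.mem hy) (by rw [mul_sub, hε.idem, hy1])
    (by rw [sub_mul, hε.idem, hy2]) with h' | h'
  · exfalso
    have hc : Commute y (ε - y) := by
      change y * (ε - y) = (ε - y) * y
      rw [mul_sub, sub_mul, hy1, hy2]
    have h1 := hc.isNilpotent_add h h'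
    rw [add_sub_cancel] at h1
    obtain ⟨n, hn⟩ := h1
    have h2 : ∀ m : ℕ, ε ^ (m + 1) = ε := by
      intro m
      induction m with
      | zero => simp
      | succ m ih => rw [pow_succ, ih, hε.idem]
    refine hε.ne ?_
    rw [← h2 n, pow_succ, hn, zero_mul]
  · exact h'

/-- if `y z` is a unit of the corner and `z` is one, then `y` is one -/
theorem unit_of_mul {y z u : A} (hz : z ∈ E) (hz1 : ε * z = z)
    (hu1 : ε * u = u) (hy2 : y * ε = y) (huz : z * u = ε)
    (h : UnitIn E ε (y * z)) : UnitIn E ε y := by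
  obtain ⟨w, hw, hw1, hw2, hw3, hw4⟩ := h
  refine ⟨z * w, E.mul_mem hz hw, by rw [← mul_assoc, hz1], by rw [mul_assoc, hw2],
    by rw [← mul_assoc, hw3], ?_⟩
  -- `w y z = ε` gives `w y = u`
  have h1 : w * y = u := by
    calc w * y = w * (y * ε) := by rw [hy2]
      _ = w * (y * z) * u := by rw [← huz]; noncomm_ring
      _ = u := by rw [hw4, hu1]
  rw [mul_assoc, h1, huz]

theorem PrimIn.exists_unit_of_sum [FiniteDimensional K A] (hε : PrimIn E ε) {ι : Type*}
    (s : Finset ι) (y : ι → A) (hyE : ∀ i ∈ s, y i ∈ E) (h1 : ∀ i ∈ s, ε * y i = y i)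
    (h2 : ∀ i ∈ s, y i * ε = y i) (hs : UnitIn E ε (∑ i ∈ s, y i)) :
    ∃ i ∈ s, UnitIn E ε (y i) := by
  classical
  induction s using Finset.induction_on with
  | empty =>
    exfalso
    obtain ⟨z, -, -, -, h3, -⟩ := hs
    rw [Finset.sum_empty, zero_mul] at h3
    exact hε.ne h3.symm
  | insert a s ha ih =>
    rw [Finset.sum_insert ha] at hs
    obtain ⟨z, hz, hz1, hz2, hz3, hz4⟩ := hs
    set R := ∑ i ∈ s, y i with hR
    have ha' : a ∈ insert a s := Finset.mem_insert_self a s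
    have hs' : ∀ i ∈ s, i ∈ insert a s := fun i hi => Finset.mem_insert_of_mem hi
    have hR1 : ε * R = R := by
      rw [hR, Finset.mul_sum]
      exact Finset.sum_congr rfl fun i hi => h1 i (hs' i hi)
    have hR2 : R * ε = R := by
      rw [hR, Finset.sum_mul]
      exact Finset.sum_congr rfl fun i hi => h2 i (hs' i hi)
    have hRE : R ∈ E := E.sum_mem fun i hi => hyE i (hs' i hi)
    have hu1 : ε * (y a + R) = y a + R := by rw [mul_add, h1 a ha', hR1]
    rcases hε.nil_or_unit (y := y a * z) (E.mul_mem (hyE a ha') hz)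
      (by rw [← mul_assoc, h1 a ha']) (by rw [mul_assoc, hz2]) with h | h
    · have h3 := hε.unit_sub (E.mul_mem (hyE a ha') hz)
        (by rw [← mul_assoc, h1 a ha']) (by rw [mul_assoc, hz2]) h
      have h4 : ε - y a * z = R * z := by rw [← hz3, add_mul]; abel
      rw [h4] at h3
      have h5 : UnitIn E ε R := unit_of_mul (u := y a + R) hz hz1 hu1 hR2 hz4 h3
      obtain ⟨i, hi, hi'⟩ := ih (fun i hi => hyE i (hs' i hi)) (fun i hi => h1 i (hs' i hi))
        (fun i hi => h2 i (hs' i hi)) h5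
      exact ⟨i, hs' i hi, hi'⟩
    · exact ⟨a, ha', unit_of_mul (u := y a + R) hz hz1 hu1 (h2 a ha') hz4 h⟩

theorem PrimIn.self_unit (hε : PrimIn E ε) : UnitIn E ε ε :=
  ⟨ε, hε.mem, hε.idem, hε.idem, hε.idem, hε.idem⟩

/-- induction on idempotents -/
theorem idem_induction [FiniteDimensional K A] (E : Subalgebra K A) {P : A → Prop} (h0 : P 0)
    (hprim : ∀ ε, PrimIn E ε → P ε)
    (hadd : ∀ f ∈ E, ∀ g ∈ E, f * f = f → g * g = g → f * g = 0 → g * f = 0 → P f → P g →
      P (f + g)) : ∀ ε ∈ E, ε * ε = ε → P ε := by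
  suffices H : ∀ (d : ℕ) (ε : A), ε ∈ E → ε * ε = ε → finrank K (cor2 K ε ε) ≤ d → P ε from
    fun ε hε hεε => H _ ε hε hεε le_rfl
  intro d
  induction d with
  | zero =>
    intro ε hε hεε hd
    have h1 : cor2 K ε ε = ⊥ := Submodule.finrank_eq_zero.1 (Nat.le_zero.1 hd)
    have h2 : ε ∈ cor2 K ε ε := ⟨hεε, hεε⟩
    rw [h1, Submodule.mem_bot] at h2
    rw [h2]; exact h0
  | succ d ih =>
    intro ε hε hεε hd
    by_cases h0' : ε = 0
    · rw [h0']; exact h0
    by_cases hp : ∀ f ∈ E, f * f = f → ε * f = f → f * ε = f → f = 0 ∨ f = ε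
    · exact hprim ε ⟨hε, hεε, h0', hp⟩
    push Not at hp
    obtain ⟨f, hf, hff, hεf, hfε, hf0, hfne⟩ := hp
    have hlt : ∀ f : A, f * f = f → ε * f = f → f * ε = f → f ≠ ε →
        finrank K (cor2 K f f) ≤ d := by
      intro f hff hεf hfε hfne
      have hle : cor2 K f f ≤ cor2 K ε ε := fun x hx =>
        ⟨by rw [← hx.1, ← mul_assoc, hεf], by rw [← hx.2, mul_assoc, hfε]⟩
      have hlt : cor2 K f f < cor2 K ε ε := by
        refine lt_of_le_of_ne hle fun h => ?_
        have h1 : ε ∈ cor2 K f f := by rw [h]; exact ⟨hεε, hεε⟩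
        exact hfne (by rw [← hfε]; exact h1.1)
      have := Submodule.finrank_lt_finrank_of_lt hlt
      omega
    have hg : (ε - f) * (ε - f) = ε - f := by
      rw [sub_mul, mul_sub, mul_sub, hεε, hεf, hfε, hff]; abel
    have h1 := ih f hf hff (hlt f hff hεf hfε hfne)
    have h2 := ih (ε - f) (E.sub_mem hε hf) hg
      (hlt _ hg (by rw [mul_sub, hεε, hεf]) (by rw [sub_mul, hεε, hfε])
        (fun h => hf0 (by rw [sub_eq_self] at h; exact h)))
    have h3 := hadd f hf (ε - f) (E.sub_mem hε hf) hff hg (by rw [mul_sub, hfε, hff, sub_self])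
      (by rw [sub_mul, hεf, hff, sub_self]) h1 h2
    rwa [add_sub_cancel] at h3

/-- `1` is a sum of primitive idempotents -/
theorem exists_prim_list [FiniteDimensional K A] (E : Subalgebra K A) :
    ∀ ε ∈ E, ε * ε = ε → ∃ (ι : Type) (_ : Fintype ι) (a : ι → A), (∀ i, PrimIn E (a i)) ∧
      ∑ i, a i = ε := by
  refine idem_induction E (P := fun ε => ∃ (ι : Type) (_ : Fintype ι) (a : ι → A),
    (∀ i, PrimIn E (a i)) ∧ ∑ i, a i = ε) ?_ ?_ ?_
  · exact ⟨Empty, inferInstance, fun e => e.elim, fun e => e.elim, by simp⟩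
  · exact fun ε hε => ⟨Unit, inferInstance, fun _ => ε, fun _ => hε, by simp⟩
  · rintro f - g - - - - - ⟨ι, _, a, ha, ha'⟩ ⟨κ, _, b, hb, hb'⟩
    refine ⟨ι ⊕ κ, inferInstance, Sum.elim a b, ?_, ?_⟩
    · rintro (i | i)
      · exact ha i
      · exact hb i
    · rw [Fintype.sum_sum_type]
      simp [ha', hb']

/-- idempotents lift modulo ideals -/
theorem exists_idem_lift [FiniteDimensional K A] (E : Subalgebra K A) (J : Submodule K A)
    (hL : ∀ x ∈ E, ∀ j ∈ J, x * j ∈ J) (hR : ∀ x ∈ E, ∀ j ∈ J, j * x ∈ J) {f : A} (hf : f ∈ E)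
    (hff : f * f - f ∈ J) : ∃ g ∈ E, g * g = g ∧ g - f ∈ J := by
  obtain ⟨q, n, h1, h2⟩ := exists_fit (K := K) f
  have hq := aeval_mem' E hf q
  have hg : f * aeval f q ∈ E := E.mul_mem hf hq
  refine ⟨f * aeval f q, hg, h1, ?_⟩
  have hpow : ∀ m : ℕ, f ^ (m + 1) - f ∈ J := by
    intro m
    induction m with
    | zero => simp
    | succ m ih =>
      have : f ^ (m + 1 + 1) - f = f * (f ^ (m + 1) - f) + (f * f - f) := by
        rw [pow_succ' f (m + 1)]; noncomm_ring
      rw [this]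
      exact J.add_mem (hL f hf _ ih) hff
  have h3 : f ^ (n + 1) * (1 - f * aeval f q) = 0 := by
    rw [pow_succ', mul_assoc, h2, mul_zero]
  have h4 : f - f * (f * aeval f q) ∈ J := by
    have h5 := hR (1 - f * aeval f q) (E.sub_mem E.one_mem hg) _ (hpow n)
    rw [sub_mul, h3, zero_sub, mul_sub, mul_one, neg_sub] at h5
    have := J.neg_mem h5
    rwa [neg_sub] at this
  have h6 : f * (f * aeval f q) - f * aeval f q ∈ J := by
    have := hR _ hq _ hff
    rwa [sub_mul, mul_assoc] at this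
  have := J.neg_mem (J.add_mem h4 h6)
  rwa [show -(f - f * (f * aeval f q) + (f * (f * aeval f q) - f * aeval f q)) =
    f * aeval f q - f by abel] at this

/-- **comparison of idempotents modulo an ideal** -/
theorem PrimIn.compare [FiniteDimensional K A] {E S : Subalgebra K A} (hSE : S ≤ E)
    {X : Type*} [Fintype X] (e : X → A) (heE : ∀ χ, e χ ∈ E) (he : ∀ χ, e χ * e χ = e χ)
    (hcomm : ∀ s ∈ S, ∀ χ, s * e χ = e χ * s) (hsum : ∑ χ, e χ = 1) (I : Submodule K A)
    (hL : ∀ x ∈ E, ∀ j ∈ I, x * j ∈ I) (hR : ∀ x ∈ E, ∀ j ∈ I, j * x ∈ I)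
    (hS : ∀ χ, ∀ x ∈ E, ∃ s ∈ S, e χ * x * e χ - s * e χ ∈ I) {f : A} (hf : PrimIn E f)
    (hfI : f ∉ I) : ∃ χ, ∃ a ∈ S, a * a = a ∧ ∃ f₁ ∈ E, ∃ f₂ ∈ E, f₁ * f₁ = f₁ ∧
      f₂ * f₂ = f₂ ∧ f₁ * f₂ = 0 ∧ f₂ * f₁ = 0 ∧ a * e χ = f₁ + f₂ ∧ f₂ ∈ I ∧
      ∃ x ∈ E, ∃ y ∈ E, x * y = f ∧ y * x = f₁ := by
  classical
  obtain ⟨ι, _, a, ha, hasum⟩ := exists_prim_list S 1 S.one_mem (mul_one 1)
  -- some term is a unit
  have h1 : ∑ c : X × ι, f * (a c.2 * e c.1) * f = f := by
    rw [← Finset.sum_mul, ← Finset.mul_sum, Fintype.sum_prod_type]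
    simp_rw [← Finset.sum_mul, hasum, one_mul]
    rw [hsum, mul_one, hf.idem]
  obtain ⟨⟨χ, i⟩, -, hu⟩ := hf.exists_unit_of_sum (Finset.univ : Finset (X × ι))
    (fun c => f * (a c.2 * e c.1) * f)
    (fun c _ => E.mul_mem (E.mul_mem hf.mem (E.mul_mem (hSE (ha c.2).mem) (heE c.1))) hf.mem)
    (fun c _ => by rw [← mul_assoc, ← mul_assoc, hf.idem])
    (fun c _ => by rw [mul_assoc, hf.idem]) (by rw [h1]; exact hf.self_unit)
  obtain ⟨w, hw, hw1, hw2, hw3, hw4⟩ := hu
  obtain ⟨b, hb⟩ : ∃ b, b = a i := ⟨_, rfl⟩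
  have hbp : PrimIn S b := hb ▸ ha i
  have hbS : b ∈ S := hbp.mem
  have hbb : b * b = b := hbp.idem
  obtain ⟨g, hg⟩ : ∃ g, g = b * e χ := ⟨_, rfl⟩
  rw [← hb, ← hg] at hw3 hw4
  have hgE : g ∈ E := hg ▸ E.mul_mem (hSE hbS) (heE χ)
  have hgg : g * g = g := by
    calc g * g = b * (e χ * b) * e χ := by rw [hg]; noncomm_ring
      _ = b * (b * e χ) * e χ := by rw [hcomm b hbS]
      _ = (b * b) * (e χ * e χ) := by noncomm_ring
      _ = g := by rw [hbb, he, hg]
  have hwgw : w * g * w = w := by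
    calc w * g * w = (w * f) * g * (f * w) := by rw [hw2, hw1]
      _ = w * (f * g * f) * w := by noncomm_ring
      _ = f * w := by rw [hw4]
      _ = w := hw1
  obtain ⟨f₁, hf₁⟩ : ∃ f₁, f₁ = g * w * g := ⟨_, rfl⟩
  have hf₁E : f₁ ∈ E := hf₁ ▸ E.mul_mem (E.mul_mem hgE hw) hgE
  have hf₁₁ : f₁ * f₁ = f₁ := by
    calc f₁ * f₁ = g * (w * (g * g) * w) * g := by rw [hf₁]; noncomm_ring
      _ = f₁ := by rw [hgg, hwgw, hf₁]
  have hgf₁ : g * f₁ = f₁ := by rw [hf₁, ← mul_assoc, ← mul_assoc, hgg]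
  have hf₁g : f₁ * g = f₁ := by rw [hf₁, mul_assoc, hgg]
  have hxy : (w * g) * (g * f) = f := by
    calc (w * g) * (g * f) = w * (g * g) * f := by noncomm_ring
      _ = (w * f) * g * f := by rw [hgg, hw2]
      _ = w * (f * g * f) := by noncomm_ring
      _ = f := hw4
  have hyx : (g * f) * (w * g) = f₁ := by
    calc (g * f) * (w * g) = g * (f * w) * g := by noncomm_ring
      _ = f₁ := by rw [hw1, hf₁]
  refine ⟨χ, b, hbS, hbb, f₁, hf₁E, g - f₁, E.sub_mem hgE hf₁E, hf₁₁, ?_, ?_, ?_, by rw [← hg]; abel, ?_,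
    w * g, E.mul_mem hw hgE, g * f, E.mul_mem hgE hf.mem, hxy, hyx⟩
  · rw [sub_mul, mul_sub, mul_sub, hgg, hgf₁, hf₁g, hf₁₁]; abel
  · rw [mul_sub, hf₁g, hf₁₁, sub_self]
  · rw [sub_mul, hgf₁, hf₁₁, sub_self]
  · -- `f₁ ≡ (b s b) e` modulo `I`
    obtain ⟨s, hs, hsI⟩ := hS χ f₁ hf₁E
    have hbE := hSE hbS
    have h2 : f₁ - (b * s * b) * e χ ∈ I := by
      have h3 := hR b hbE _ (hL b hbE _ hsI)
      have h4 : b * (e χ * f₁ * e χ - s * e χ) * b = f₁ - (b * s * b) * e χ := by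
        calc b * (e χ * f₁ * e χ - s * e χ) * b =
            (b * e χ) * f₁ * (e χ * b) - b * s * (e χ * b) := by noncomm_ring
          _ = g * f₁ * g - b * s * (b * e χ) := by rw [← hcomm b hbS, hg]
          _ = f₁ - (b * s * b) * e χ := by rw [hgf₁, hf₁g]; noncomm_ring
      rwa [h4] at h3
    have hsb : b * s * b ∈ S := S.mul_mem (S.mul_mem hbS hs) hbS
    rcases hbp.nil_or_unit hsb (by rw [← mul_assoc, ← mul_assoc, hbb])
      (by rw [mul_assoc, hbb]) with h3 | ⟨z, hz, -, -, -, hz4⟩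
    · exfalso
      obtain ⟨n, hn⟩ := h3
      -- powers
      have h5 : ∀ m : ℕ, f₁ - (b * s * b) ^ (m + 1) * e χ ∈ I := by
        intro m
        induction m with
        | zero => simpa using h2
        | succ m ih =>
          have h6 : f₁ - (b * s * b) ^ (m + 1 + 1) * e χ =
              (f₁ - (b * s * b) ^ (m + 1) * e χ) * f₁ +
                (b * s * b) ^ (m + 1) * e χ * (f₁ - (b * s * b) * e χ) := by
            have h7 : (b * s * b) ^ (m + 1 + 1) * e χ =
                (b * s * b) ^ (m + 1) * e χ * ((b * s * b) * e χ) := by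
              calc (b * s * b) ^ (m + 1 + 1) * e χ =
                  (b * s * b) ^ (m + 1) * ((b * s * b) * (e χ * e χ)) := by
                    rw [he, pow_succ (b * s * b) (m + 1)]; noncomm_ring
                _ = (b * s * b) ^ (m + 1) * (((b * s * b) * e χ) * e χ) := by noncomm_ring
                _ = (b * s * b) ^ (m + 1) * ((e χ * (b * s * b)) * e χ) := by
                    rw [hcomm _ hsb]
                _ = (b * s * b) ^ (m + 1) * e χ * ((b * s * b) * e χ) := by noncomm_ring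
            rw [h7]
            calc f₁ - (b * s * b) ^ (m + 1) * e χ * ((b * s * b) * e χ) =
                f₁ * f₁ - (b * s * b) ^ (m + 1) * e χ * ((b * s * b) * e χ) := by rw [hf₁₁]
              _ = _ := by noncomm_ring
          rw [h6]
          exact I.add_mem (hR _ hf₁E _ ih)
            (hL _ (E.mul_mem (E.pow_mem (hSE hsb) _) (heE χ)) _ h2)
      have h8 := h5 n
      rw [pow_succ, hn, zero_mul, zero_mul, sub_zero] at h8
      refine hfI ?_
      have h9 : f = (w * g) * f₁ * (g * f) := by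
        calc f = f * f := hf.idem.symm
          _ = ((w * g) * (g * f)) * ((w * g) * (g * f)) := by rw [hxy]
          _ = (w * g) * ((g * f) * (w * g)) * (g * f) := by noncomm_ring
          _ = _ := by rw [hyx]
      rw [h9]
      exact hR _ (E.mul_mem hgE hf.mem) _ (hL _ (E.mul_mem hw hgE) _ h8)
    · -- unit case
      have h5 : (b * s * b) * e χ * (g - f₁) ∈ I := by
        have h6 := hR (g - f₁) (E.sub_mem hgE hf₁E) _ h2
        have h7 : (f₁ - (b * s * b) * e χ) * (g - f₁) = -((b * s * b) * e χ * (g - f₁)) := by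
          rw [sub_mul, mul_sub f₁, hf₁g, hf₁₁, sub_self, zero_sub]
        rw [h7] at h6
        simpa using I.neg_mem h6
      have h6 := hL z (hSE hz) _ h5
      have h7 : z * ((b * s * b) * e χ * (g - f₁)) = g - f₁ := by
        calc z * ((b * s * b) * e χ * (g - f₁)) = (z * (b * s * b)) * e χ * (g - f₁) := by
              noncomm_ring
          _ = g * (g - f₁) := by rw [hz4, hg]
          _ = g - f₁ := by rw [mul_sub, hgg, hgf₁]
      rwa [h7] at h6

end Vale.P179.H815.LL
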