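import Vale.Agent.P179.H815.LL0
import Vale.Agent.P179.H815.LL1

/-!
# Lemma L (REL), part 2: the modules `L / L J(Y)`, homomorphisms and fixed points
-/

namespace Vale.P179.H815.LL

open Module Vale.P179.H175

variable {K : Type*} [Field K] {L : Type*} [Ring L] [Algebra K L]

theorem mem_Mor {Y Z : Set L} {b : L} : b ∈ Mor K Y Z ↔ ∀ y ∈ Y, (y - 1) * b ∈ LJ K Z :=
  Iff.rfl

theorem LJ_mul_Mor {Y Z : Set L} {z b : L} (hz : z ∈ LJ K Y) (hb : b ∈ Mor K Y Z) :
    z * b ∈ LJ K Z := by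
  unfold LJ at hz
  induction hz using Submodule.span_induction with
  | mem z hz =>
    obtain ⟨l, y, hy, rfl⟩ := hz
    rw [mul_assoc]
    exact mul_mem_LJ _ (hb y hy)
  | zero => rw [zero_mul]; exact Submodule.zero_mem _
  | add x y _ _ hx hy => rw [add_mul]; exact Submodule.add_mem _ hx hy
  | smul c x _ hx => rw [smul_mul_assoc]; exact Submodule.smul_mem _ _ hx

theorem Mor_mul {X Y Z : Set L} {b c : L} (hb : b ∈ Mor K X Y) (hc : c ∈ Mor K Y Z) :
    b * c ∈ Mor K X Z := fun x hx => by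
  rw [← mul_assoc]
  exact LJ_mul_Mor (hb x hx) hc

theorem LJ_le_Mor {Y Z : Set L} {z : L} (hz : z ∈ LJ K Z) : z ∈ Mor K Y Z := fun _ _ =>
  mul_mem_LJ _ hz

theorem one_mem_Mor (Y : Set L) : (1 : L) ∈ Mor K Y Y := fun y hy => by
  have := mul_sub_mem_LJ (K := K) (1 : L) hy
  rwa [one_mul, ← mul_one (y - 1)] at this

variable {W : ℚ → Submodule K L}

/-- the endomorphisms of degree `0` -/
def E0 (hW : GrAlg W) (Y : Set L) : Subalgebra K L where
  carrier := {b | b ∈ Mor K Y Y ∧ b ∈ W 0}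
  mul_mem' := fun {a b} ha hb => ⟨Mor_mul ha.1 hb.1, by
    have := hW.mul ha.2 hb.2
    rwa [add_zero] at this⟩
  one_mem' := ⟨one_mem_Mor Y, hW.one⟩
  add_mem' := fun {a b} ha hb => ⟨add_mem ha.1 hb.1, add_mem ha.2 hb.2⟩
  zero_mem' := ⟨zero_mem _, zero_mem _⟩
  algebraMap_mem' := fun c => by
    rw [Algebra.algebraMap_eq_smul_one]
    exact ⟨Submodule.smul_mem _ _ (one_mem_Mor Y), Submodule.smul_mem _ _ hW.one⟩

theorem mem_E0 {hW : GrAlg W} {Y : Set L} {b : L} : b ∈ E0 hW Y ↔ b ∈ Mor K Y Y ∧ b ∈ W 0 :=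
  Iff.rfl

/-! ### homogeneity -/

theorem homog_LJ (hW : GrAlg W) {Y : Set L} (hY : HomY W Y) : Homog W (LJ K Y) := by
  refine homog_span ?_
  rintro _ ⟨l, y, hy, rfl⟩ r
  obtain ⟨s, hs⟩ := hY y hy
  rw [hW.cpt_mul' l hs r]
  exact mul_sub_mem_LJ _ hy

theorem homog_Mor (hW : GrAlg W) {Y Z : Set L} (hY : HomY W Y) (hZ : HomY W Z) :
    Homog W (Mor K Y Z) := by
  intro b hb r y hy
  obtain ⟨s, hs⟩ := hY y hy
  have h := homog_LJ hW hZ _ (hb y hy) (s + r)
  rw [hW.cpt_mul hs b (s + r), add_sub_cancel_left] at h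
  exact h

/-! ### fixed points -/

variable {X : Type*} [AddCommGroup X] [Module K X] [Module L X] [IsScalarTower K L X]

theorem mem_fix {Y : Set L} {v : X} : v ∈ fix K X Y ↔ ∀ y ∈ Y, y • v = v := Iff.rfl

theorem LJ_smul {Y : Set L} {z : L} (hz : z ∈ LJ K Y) {v : X} (hv : v ∈ fix K X Y) :
    z • v = 0 := by
  unfold LJ at hz
  induction hz using Submodule.span_induction with
  | mem z hz =>
    obtain ⟨l, y, hy, rfl⟩ := hz
    rw [mul_smul, sub_smul, one_smul, hv y hy, sub_self, smul_zero]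
  | zero => rw [zero_smul]
  | add x y _ _ hx hy => rw [add_smul, hx, hy, add_zero]
  | smul c x _ hx => rw [smul_assoc, hx, smul_zero]

theorem Mor_smul {Y Z : Set L} {b : L} (hb : b ∈ Mor K Y Z) {v : X} (hv : v ∈ fix K X Z) :
    b • v ∈ fix K X Y := fun y hy => by
  have h := LJ_smul (hb y hy) hv
  rw [sub_mul, one_mul, sub_smul, sub_eq_zero, mul_smul] at h
  exact h

theorem homog_fix {V : ℚ → Submodule K X} (hV : GrMod W V) {Y : Set L}
    (hY : HomY W Y) : Homog V (fix K X Y) := by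
  intro v hv r y hy
  obtain ⟨s, hs⟩ := hY y hy
  have h := hV.cpt_smul hs v (s + r)
  rw [add_sub_cancel_left, sub_smul, one_smul, hv y hy, sub_self, map_zero, sub_smul,
    one_smul] at h
  exact (sub_eq_zero.1 h.symm)

/-! ### classes -/

theorem mem_cl {Y : Set L} {f : L} {v : X} : v ∈ cl K X Y f ↔ v ∈ fix K X Y ∧ f • v = v :=
  Iff.rfl

theorem cl_congr {Y : Set L} {f g : L} (h : f - g ∈ LJ K Y) : cl K X Y f = cl K X Y g := by
  ext v
  rw [mem_cl, mem_cl]
  refine and_congr_right fun hv => ?_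
  have h1 := LJ_smul h hv
  rw [sub_smul, sub_eq_zero] at h1
  rw [h1]

theorem cl_zero {Y : Set L} {f : L} (h : f ∈ LJ K Y) : cl K X Y f = ⊥ := by
  rw [eq_bot_iff]
  intro v hv
  rw [mem_cl, LJ_smul h hv.1] at hv
  rw [Submodule.mem_bot]
  exact hv.2.symm

theorem cl_empty (f : L) : cl K X (∅ : Set L) f = cor1 K X f := by
  ext v
  rw [mem_cl]
  exact ⟨fun h => h.2, fun h => ⟨fun y hy => absurd hy (Set.notMem_empty y), h⟩⟩

/-- additivity -/
theorem gd_cl_add [FiniteDimensional K X] {V : ℚ → Submodule K X} (hV : GrMod W V)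
    {Y : Set L} {f g : L} (hf : f ∈ Mor K Y Y) (hf0 : f ∈ W 0)
    (hg0 : g ∈ W 0) (hff : f * f = f) (hgg : g * g = g) (hfg : f * g = 0) (hgf : g * f = 0) :
    gd V (cl K X Y (f + g)) = gd V (cl K X Y f) + gd V (cl K X Y g) := by
  apply coeff_ext
  intro r
  have hi := hV.int.submodule_iSupIndep
  rw [AddMonoidAlgebra.coeff_add, Finsupp.add_apply, coeff_gd hi, coeff_gd hi, coeff_gd hi]
  have h1 : cl K X Y (f + g) ⊓ V r = (cl K X Y f ⊓ V r) ⊔ (cl K X Y g ⊓ V r) := by
    apply le_antisymm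
    · rintro v ⟨⟨hv, hv'⟩, hvr⟩
      have hv2 : (f + g) • v = v := hv'
      have h2 : f • v ∈ cl K X Y f ⊓ V r := by
        refine ⟨⟨Mor_smul hf hv, ?_⟩, ?_⟩
        · change f • f • v = f • v
          rw [← mul_smul, hff]
        · have := hV.smul hf0 hvr
          rwa [zero_add] at this
      have h3 : g • v ∈ cl K X Y g ⊓ V r := by
        have h4 : g • v = v - f • v := by
          rw [eq_sub_iff_add_eq, ← add_smul, add_comm g f, hv2]
        refine ⟨⟨?_, ?_⟩, ?_⟩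
        · rw [h4]
          exact sub_mem hv (Mor_smul hf hv)
        · change g • g • v = g • v
          rw [← mul_smul, hgg]
        · have := hV.smul hg0 hvr
          rwa [zero_add] at this
      have h5 : v = f • v + g • v := by rw [← add_smul, hv2]
      rw [h5]
      exact Submodule.add_mem_sup h2 h3
    · refine sup_le ?_ ?_
      · rintro v ⟨⟨hv, hv'⟩, hvr⟩
        have hv2 : f • v = v := hv'
        refine ⟨⟨hv, ?_⟩, hvr⟩
        change (f + g) • v = v
        rw [add_smul, ← hv2, ← mul_smul, ← mul_smul, hff, hgf, zero_smul, add_zero]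
      · rintro v ⟨⟨hv, hv'⟩, hvr⟩
        have hv2 : g • v = v := hv'
        refine ⟨⟨hv, ?_⟩, hvr⟩
        change (f + g) • v = v
        rw [add_smul, ← hv2, ← mul_smul, ← mul_smul, hgg, hfg, zero_smul, zero_add]
  have h2 : (cl K X Y f ⊓ V r) ⊓ (cl K X Y g ⊓ V r) = ⊥ := by
    rw [eq_bot_iff]
    rintro v ⟨⟨⟨-, hv⟩, -⟩, ⟨⟨-, hv'⟩, -⟩⟩
    have hv2 : f • v = v := hv
    have hv3 : g • v = v := hv'
    rw [Submodule.mem_bot, ← hv2, ← hv3, ← mul_smul, hfg, zero_smul]
  have h3 := Submodule.finrank_sup_add_finrank_inf_eq (cl K X Y f ⊓ V r) (cl K X Y g ⊓ V r)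
  rw [h2, finrank_bot, add_zero, ← h1] at h3
  exact_mod_cast h3

/-- equivalent idempotents have the same class, up to a shift -/
theorem gd_cl_equiv [FiniteDimensional K X] {V : ℚ → Submodule K X} (hV : GrMod W V)
    {Y Z : Set L} {a b f g : L} {r : ℚ} (ha : a ∈ Mor K Z Y) (har : a ∈ W r)
    (hb : b ∈ Mor K Y Z) (hbr : b ∈ W (-r)) (hba : b * a = f) (hab : a * b = g) :
    gd V (cl K X Z g) = H904.tq r * gd V (cl K X Y f) := by
  apply coeff_ext
  intro s
  have hi := hV.int.submodule_iSupIndep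
  rw [coeff_gd hi, coeff_tq_mul, coeff_gd hi]
  congr 1
  -- the linear equivalence `v ↦ a v`
  have h1 : ∀ v ∈ cl K X Y f ⊓ V (s - r), a • v ∈ cl K X Z g ⊓ V s := by
    rintro v ⟨⟨hv, hv'⟩, hvr⟩
    have hv2 : f • v = v := hv'
    refine ⟨⟨Mor_smul ha hv, ?_⟩, ?_⟩
    · change g • a • v = a • v
      rw [← hab, mul_smul, ← mul_smul b, hba, hv2]
    · have := hV.smul har hvr
      rwa [show r + (s - r) = s by ring] at this
  have h2 : ∀ v ∈ cl K X Z g ⊓ V s, b • v ∈ cl K X Y f ⊓ V (s - r) := by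
    rintro v ⟨⟨hv, hv'⟩, hvr⟩
    have hv2 : g • v = v := hv'
    refine ⟨⟨Mor_smul hb hv, ?_⟩, ?_⟩
    · change f • b • v = b • v
      rw [← hba, mul_smul, ← mul_smul a, hab, hv2]
    · have := hV.smul hbr hvr
      rwa [show -r + s = s - r by ring] at this
  let la : X →ₗ[K] X := DistribSMul.toLinearMap K X a
  refine (LinearEquiv.finrank_eq (LinearEquiv.symm ?_))
  exact
    { toFun := fun v => ⟨a • (v : X), h1 v v.2⟩
      map_add' := fun v w => Subtype.ext (smul_add _ _ _)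
      map_smul' := fun c v => Subtype.ext (smul_algebra_smul_comm _ _ _)
      invFun := fun v => ⟨b • (v : X), h2 v v.2⟩
      left_inv := fun v => Subtype.ext (by
        change b • a • (v : X) = v
        rw [← mul_smul, hba]
        exact v.2.1.2)
      right_inv := fun v => Subtype.ext (by
        change a • b • (v : X) = v
        rw [← mul_smul, hab]
        exact v.2.1.2) }

end Vale.P179.H815.LL
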