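import Vale.Agent.P179.H815.Co1

/-!
# The complement of `X` in the coinduced module is projective
-/

open scoped TensorProduct

namespace Vale.P179.H815.Co

universe u v w w'

/-- The data on the algebra map `i : A → B`, `A` spanned by the group elements `γ`: a bimodule
retraction `rho`, the projectivity of its kernel in Higman's form, and a separability element. -/
structure CData {K : Type u} [Field K] {B : Type v} [Ring B] [Algebra K B] {A : Type w} [Ring A]
    [Algebra K A] {Γ : Type w'} [Group Γ] [Fintype Γ] (γ : Γ →* A) (i : A →ₐ[K] B) where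
  span : Submodule.span K (Set.range γ) = ⊤
  /-- the retraction -/
  rho : B →ₗ[K] A
  rho_i : ∀ h, rho (i h) = h
  rho_left : ∀ h b, rho (i h * b) = h * rho b
  rho_right : ∀ b h, rho (b * i h) = rho b * h
  /-- Higman's map -/
  theta : B →ₗ[K] B
  htheta : ∀ b, ∑ x : Γ, ∑ y : Γ, i (γ x) *
    theta (i (γ x⁻¹) * b * i (γ y)) * i (γ y⁻¹) = b - i (rho b)
  /-- the number of terms in the separability element -/
  n : ℕ
  /-- left parts -/
  s : Fin n → B
  /-- right parts -/
  t : Fin n → B
  hst : ∑ a, s a * t a = 1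
  hbal : ∀ (M : Type v) [AddCommGroup M] [Module K M] (β : B →ₗ[K] B →ₗ[K] M),
    (∀ (h : A) (b b' : B), β (b * i h) b' = β b (i h * b')) →
    ∀ b, ∑ a, β (b * s a) (t a) = ∑ a, β (s a) (t a * b)

section

variable {K : Type u} [Field K] {B : Type v} [Ring B] [Algebra K B] {A : Type w} [Ring A]
  [Algebra K A] {Γ : Type w'} [Group Γ]

/-- two linear maps on `A` which agree on the group elements are equal -/
theorem malg_ext {γ : Γ →* A} (hs : Submodule.span K (Set.range γ) = ⊤) {M : Type*}
    [AddCommGroup M] [Module K M] {f g : A →ₗ[K] M} (h : ∀ x : Γ, f (γ x) = g (γ x)) : f = g := by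
  refine LinearMap.ext fun a => ?_
  have ha : a ∈ Submodule.span K (Set.range γ) := by rw [hs]; trivial
  induction ha using Submodule.span_induction with
  | mem x hx =>
    obtain ⟨g, rfl⟩ := hx
    exact h g
  | zero => simp
  | add a b _ _ ha hb => rw [map_add, map_add, ha, hb]
  | smul c x _ hx => rw [map_smul, map_smul, hx]

/-- a group element in `B` -/
def gr (γ : Γ →* A) (i : A →ₐ[K] B) (x : Γ) : B := i (γ x)

variable (γ : Γ →* A) (i : A →ₐ[K] B)

theorem gr_mul (x y : Γ) : gr γ i (x * y) = gr γ i x * gr γ i y := by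
  unfold gr
  rw [← map_mul, ← map_mul]

theorem gr_one : gr γ i (1 : Γ) = 1 := by
  unfold gr
  rw [map_one, map_one]

theorem gr_inv_mul (x : Γ) : gr γ i x⁻¹ * gr γ i x = 1 := by
  rw [← gr_mul, inv_mul_cancel, gr_one]

theorem gr_mul_inv (x : Γ) : gr γ i x * gr γ i x⁻¹ = 1 := by
  rw [← gr_mul, mul_inv_cancel, gr_one]

variable {γ i} {X : Type v} [AddCommGroup X] [Module K X] [Module B X] [IsScalarTower K B X]

theorem equivariant_of_gr (hs : Submodule.span K (Set.range γ) = ⊤) {f : B →ₗ[K] X}
    (hf : ∀ (g : Γ) (b : B), f (gr γ i g * b) = gr γ i g • f b)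
    (h : A) (b : B) : f (i h * b) = i h • f b := by
  have h1 : (f ∘ₗ LinearMap.mulRight K b) ∘ₗ i.toLinearMap =
      ((LinearMap.toSpanSingleton B X (f b)).restrictScalars K) ∘ₗ i.toLinearMap :=
    malg_ext hs fun g => hf g b
  exact congrArg (fun φ : A →ₗ[K] X => φ h) h1

namespace Coind

/-- constructor: equivariance for group elements is enough -/
def mkG (hs : Submodule.span K (Set.range γ) = ⊤) (f : B →ₗ[K] X) (hf : ∀ (g : Γ) (b : B), f (gr γ i g * b) = gr γ i g • f b) : Coind i X :=
  mk' f (equivariant_of_gr hs hf)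

@[simp] theorem mkG_apply (hs : Submodule.span K (Set.range γ) = ⊤) (f : B →ₗ[K] X) (hf : ∀ (g : Γ) (b : B), f (gr γ i g * b) = gr γ i g • f b)
    (b : B) : mkG hs f hf b = f b := rfl

theorem map_gr_mul (f : Coind i X) (g : Γ) (b : B) : f (gr γ i g * b) = gr γ i g • f b :=
  map_i_mul f _ b

end Coind

end

end Vale.P179.H815.Co
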