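import Vale.Agent.P179.H815.Co2

/-!
# The complement of `X` in the coinduced module is projective: the proof
-/

open scoped TensorProduct

namespace Vale.P179.H815.Co

universe u v w w'

variable {K : Type u} [Field K] {B : Type v} [Ring B] [Algebra K B] {A : Type w} [Ring A] [Algebra K A]
  {Γ : Type w'} [Group Γ]
  [Fintype Γ] {γ : Γ →* A} {i : A →ₐ[K] B} (D : CData γ i)
  {X : Type v} [AddCommGroup X] [Module K X] [Module B X] [IsScalarTower K B X]

namespace CData

theorem htheta' (b : B) : ∑ x : Γ, ∑ y : Γ, gr γ i x * D.theta (gr γ i x⁻¹ * b * gr γ i y) * gr γ i y⁻¹ =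
    b - i (D.rho b) := D.htheta b

/-- the retraction `Coind X → X` -/
def q : Coind i X →ₗ[B] X where
  toFun f := ∑ a, D.s a • f (D.t a)
  map_add' f g := by
    rw [← Finset.sum_add_distrib]
    exact Finset.sum_congr rfl fun a _ => by rw [Coind.add_apply, smul_add]
  map_smul' b f := by
    have h := D.hbal X (LinearMap.mk₂ K (fun x y => x • f y)
      (fun x x' y => add_smul x x' (f y)) (fun c x y => smul_assoc c x (f y))
      (fun x y y' => by rw [Coind.map_add', smul_add])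
      (fun c x y => by rw [Coind.map_smul', smul_comm]))
      (fun h b b' => by
        rw [LinearMap.mk₂_apply, LinearMap.mk₂_apply, Coind.map_i_mul, mul_smul]) b
    simp only [LinearMap.mk₂_apply] at h
    simp only [Coind.smulB_apply, RingHom.id_apply]
    rw [← h, Finset.smul_sum]
    exact Finset.sum_congr rfl fun a _ => by rw [mul_smul]

theorem q_apply (f : Coind i X) : D.q f = ∑ a, D.s a • f (D.t a) := rfl

theorem q_j (x : X) : D.q (Coind.j x : Coind i X) = x := by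
  rw [q_apply]
  simp only [Coind.j_apply, ← mul_smul]
  rw [← Finset.sum_smul, D.hst, one_smul]

/-- Higman's map on the coinduced module -/
noncomputable def eta : Coind i X →ₗ[K] Coind i X where
  toFun f := Coind.mkG D.span (∑ x : Γ, (Algebra.lsmul K K X (gr γ i x)) ∘ₗ (Coind.coeLin f) ∘ₗ D.theta ∘ₗ
    LinearMap.mulLeft K (gr γ i x⁻¹)) (by
      intro g b
      simp only [LinearMap.coe_sum, Finset.sum_apply, LinearMap.comp_apply,
        LinearMap.mulLeft_apply, Coind.coeLin_apply, Algebra.lsmul_coe]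
      rw [Finset.smul_sum]
      refine Fintype.sum_bijective (fun x => g⁻¹ * x) (Group.mulLeft_bijective g⁻¹) _ _ fun x => ?_
      rw [← mul_smul, ← gr_mul, mul_inv_cancel_left, ← mul_assoc, ← gr_mul]
      simp only [mul_inv_rev, inv_inv])
  map_add' f g := by
    ext b
    simp [Finset.sum_add_distrib]
  map_smul' c f := by
    ext b
    simp only [Coind.mkG_apply, LinearMap.coe_sum, Finset.sum_apply, LinearMap.comp_apply,
        LinearMap.mulLeft_apply, Coind.coeLin_apply, Algebra.lsmul_coe, Coind.smulK_apply,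
        RingHom.id_apply, Finset.smul_sum]
    exact Finset.sum_congr rfl fun x _ => by rw [smul_comm]

theorem eta_apply (f : Coind i X) (b : B) :
    D.eta f b = ∑ x : Γ, gr γ i x • f (D.theta (gr γ i x⁻¹ * b)) := by
  change (∑ x : Γ, (Algebra.lsmul K K X (gr γ i x)) ∘ₗ (Coind.coeLin f) ∘ₗ D.theta ∘ₗ
    LinearMap.mulLeft K (gr γ i x⁻¹)) b = _
  simp only [LinearMap.coe_sum, Finset.sum_apply, LinearMap.comp_apply,
        LinearMap.mulLeft_apply, Coind.coeLin_apply, Algebra.lsmul_coe]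

/-- the trace of `eta` -/
theorem tr_eta (f : Coind i X) (b : B) :
    (∑ y : Γ, gr γ i y • D.eta (gr γ i y⁻¹ • f)) b = f (b - i (D.rho b)) := by
  rw [Coind.sum_apply, ← D.htheta' b, Finset.sum_comm]
  simp only [Coind.map_sum']
  refine Finset.sum_congr rfl fun y _ => ?_
  rw [Coind.smulB_apply, eta_apply]
  refine Finset.sum_congr rfl fun x _ => ?_
  rw [Coind.smulB_apply, ← Coind.map_gr_mul, mul_assoc, mul_assoc]

/-- the section of the evaluation given by `rho` -/
noncomputable def j' : X →ₗ[K] Coind i X where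
  toFun x := Coind.mk' (((LinearMap.toSpanSingleton B X x).restrictScalars K) ∘ₗ
    i.toLinearMap ∘ₗ D.rho) (by
      intro h b
      change i (D.rho (i h * b)) • x = i h • i (D.rho b) • x
      rw [D.rho_left, map_mul, mul_smul])
  map_add' x y := by
    ext b
    change i (D.rho b) • (x + y) = i (D.rho b) • x + i (D.rho b) • y
    rw [smul_add]
  map_smul' c x := by
    ext b
    change i (D.rho b) • c • x = c • i (D.rho b) • x
    rw [smul_comm]

theorem j'_apply (x : X) (b : B) : (D.j' x : Coind i X) b = i (D.rho b) • x := rfl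

theorem ev_j' (x : X) : Coind.ev (D.j' x : Coind i X) = x := by
  rw [Coind.ev_apply, j'_apply, ← map_one i, D.rho_i, map_one, one_smul]

theorem j'_gr (g : Γ) (x : X) : (D.j' (gr γ i g • x) : Coind i X) = gr γ i g • D.j' x := by
  ext b
  rw [Coind.smulB_apply, j'_apply, j'_apply]
  unfold gr
  rw [D.rho_right, map_mul, mul_smul]

/-- the `A`-linear projection on the summand which comes from the complement of `A` in `B` -/
noncomputable def p2 : Coind i X →ₗ[K] Coind i X := LinearMap.id - D.j' ∘ₗ Coind.ev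

theorem p2_apply (f : Coind i X) : D.p2 f = f - D.j' (f 1) := rfl

theorem p2_eq (f : Coind i X) : D.p2 f = ∑ y : Γ, gr γ i y • D.eta (gr γ i y⁻¹ • f) := by
  ext b
  rw [tr_eta, p2_apply, Coind.sub_apply, Coind.map_sub', j'_apply]
  congr 1
  rw [← mul_one (i (D.rho b)), Coind.map_i_mul]
  simp

theorem p2_gr (g : Γ) (f : Coind i X) : D.p2 (gr γ i g • f) = gr γ i g • D.p2 f := by
  rw [p2_apply, p2_apply, smul_sub, ← j'_gr]
  congr 2
  rw [Coind.smulB_apply, one_mul, ← mul_one (gr γ i g), Coind.map_gr_mul, mul_one]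

theorem smul_apply_gr {Y : Type*} [AddCommGroup Y] [Module K Y] [Module B Y]
    (φ : Y →ₗ[K] Y) (hφ : ∀ (g : Γ) (v : Y), φ (gr γ i g • v) = gr γ i g • φ v) (ψ : Y →ₗ[K] Y)
    (χ : Y →ₗ[K] Y) (hχ : ∀ (g : Γ) (v : Y), χ (gr γ i g • v) = gr γ i g • χ v) (v : Y) :
    ∑ y : Γ, gr γ i y • φ (ψ (χ (gr γ i y⁻¹ • v))) = φ (∑ y : Γ, gr γ i y • ψ (gr γ i y⁻¹ • χ v)) := by
  rw [map_sum]
  exact Finset.sum_congr rfl fun y _ => by rw [hφ, hχ]

/-- `j` as a `K`-linear map -/
def jK : X →ₗ[K] Coind i X := (Coind.j (i := i) (X := X)).restrictScalars K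

/-- `q` as a `K`-linear map -/
noncomputable def qK : Coind i X →ₗ[K] X := (D.q (X := X)).restrictScalars K

/-- Higman's map for the projection on the kernel of `q` -/
noncomputable def etaQ : Coind i X →ₗ[K] Coind i X :=
  D.eta + (D.j' ∘ₗ D.qK) ∘ₗ D.eta ∘ₗ (jK ∘ₗ Coind.ev) - (D.j' ∘ₗ D.qK) ∘ₗ D.eta -
    D.eta ∘ₗ (jK ∘ₗ D.qK)

omit [Fintype Γ] in
theorem ev_gr (g : Γ) (f : Coind i X) : Coind.ev (gr γ i g • f) = gr γ i g • Coind.ev f :=
  Coind.ev_smul _ f

omit [Fintype Γ] in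
theorem j_smul (b : B) (x : X) : (Coind.j (b • x) : Coind i X) = b • Coind.j x :=
  map_smul _ b x

theorem tr_etaQ (f : Coind i X) :
    ∑ y : Γ, gr γ i y • D.etaQ (gr γ i y⁻¹ • f) = f - Coind.j (D.q f) := by
  have hA : ∀ (g : Γ) (v : Coind i X), (D.j' ∘ₗ D.qK) (gr γ i g • v) =
      gr γ i g • (D.j' ∘ₗ D.qK) v := by
    intro g v
    change D.j' (D.q (gr γ i g • v)) = gr γ i g • D.j' (D.q v)
    rw [map_smul, j'_gr]
  have hC : ∀ (g : Γ) (v : Coind i X), (jK ∘ₗ Coind.ev) (gr γ i g • v) =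
      gr γ i g • (jK ∘ₗ Coind.ev : Coind i X →ₗ[K] Coind i X) v := by
    intro g v
    change Coind.j (Coind.ev (gr γ i g • v)) = gr γ i g • Coind.j (Coind.ev v)
    rw [ev_gr, j_smul]
  have hE : ∀ (g : Γ) (v : Coind i X), (jK ∘ₗ D.qK) (gr γ i g • v) =
      gr γ i g • (jK ∘ₗ D.qK : Coind i X →ₗ[K] Coind i X) v := by
    intro g v
    change Coind.j (D.q (gr γ i g • v)) = gr γ i g • Coind.j (D.q v)
    rw [map_smul, j_smul]
  have hI : ∀ (g : Γ) (v : Coind i X), (LinearMap.id : Coind i X →ₗ[K] Coind i X) (gr γ i g • v) =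
      gr γ i g • (LinearMap.id : Coind i X →ₗ[K] Coind i X) v := fun _ _ => rfl
  have h1 : ∀ v : Coind i X, ∑ y : Γ, gr γ i y • D.eta (gr γ i y⁻¹ • v) = D.p2 v := fun v => (D.p2_eq v).symm
  have h2 := smul_apply_gr (γ := γ) (i := i) _ hA D.eta _ hC f
  have h3 := smul_apply_gr (γ := γ) (i := i) _ hA D.eta _ hI f
  have h4 := smul_apply_gr (γ := γ) (i := i) _ hI D.eta _ hE f
  rw [h1] at h2 h3 h4
  have h5 : ∑ y : Γ, gr γ i y • D.etaQ (gr γ i y⁻¹ • f) = D.p2 f +
      (D.j' ∘ₗ D.qK) (D.p2 ((jK ∘ₗ Coind.ev : Coind i X →ₗ[K] Coind i X) f)) -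
      (D.j' ∘ₗ D.qK) (D.p2 f) - D.p2 ((jK ∘ₗ D.qK) f) := by
    simp only [LinearMap.id_coe, id_eq] at h2 h3 h4
    rw [← h2, ← h3, ← h4, ← h1 f, ← Finset.sum_add_distrib, ← Finset.sum_sub_distrib,
      ← Finset.sum_sub_distrib]
    refine Finset.sum_congr rfl fun y _ => ?_
    rw [← smul_add, ← smul_sub, ← smul_sub]
    rfl
  rw [h5]
  have e1 : ∀ v : Coind i X, (D.j' ∘ₗ D.qK) v = D.j' (D.q v) := fun _ => rfl
  have e2 : ∀ v : Coind i X, (jK ∘ₗ Coind.ev : Coind i X →ₗ[K] Coind i X) v = Coind.j (v 1) :=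
    fun _ => rfl
  have e3 : ∀ v : Coind i X, (jK ∘ₗ D.qK : Coind i X →ₗ[K] Coind i X) v = Coind.j (D.q v) :=
    fun _ => rfl
  rw [e1, e1, e2, e3]
  simp only [p2_apply, map_sub, q_j, Coind.j_apply, one_smul]
  abel

end CData

end Vale.P179.H815.Co
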