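import Vale.Agent.P179.H815.Co5

/-!
# The graded complement of `X` in the coinduced module, and its graded dimensions
-/

open Vale.P179.H175 Vale.P179.H815 Vale.P179.H904 Module

namespace Vale.P179.H815.Co

universe u v w w'

section homog

variable {K : Type*} [Field K] {X : Type*} [AddCommGroup X] [Module K X]
  {V : ℚ → Submodule K X}

theorem finsum_eq_sum_cpt (hV : DirectSum.IsInternal V) (x : X) :
    ∃ S : Finset ℚ, x = ∑ r ∈ S, cpt V r x := by
  classical
  refine ⟨(finite_cpt hV x).toFinset, ?_⟩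
  conv_lhs => rw [← sum_cpt hV x]
  exact finsum_eq_sum_of_support_subset _ (by simp [Function.support])

end homog

variable {K : Type u} [Field K] {B : Type v} [Ring B] [Algebra K B] {A : Type w} [Ring A] [Algebra K A]
  {Γ : Type w'} [Group Γ]
  [Fintype Γ] {γ : Γ →* A} {i : A →ₐ[K] B} (D : CData γ i)
  {X : Type v} [AddCommGroup X] [Module K X] [Module B X] [IsScalarTower K B X]
  {W : ℚ → Submodule K B} {V : ℚ → Submodule K X} {WH : ℚ → Submodule K (A)}

instance [FiniteDimensional K B] [FiniteDimensional K X] : FiniteDimensional K (Coind i X) :=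
  inferInstanceAs (FiniteDimensional K ↥(coindSub i X))

omit [Fintype Γ] in
theorem j_mem_VC (hV : GrMod W V) {r : ℚ} {x : X} (hx : x ∈ V r) :
    (Coind.j x : Coind i X) ∈ VC i W V r := fun _ _ hb => hV.smul hb hx

namespace CData

variable [FiniteDimensional K B] [FiniteDimensional K X]

/-- the component of degree `0` of `q` -/
noncomputable def q0 (hW : GrAlg W) (hV : GrMod W V) (hWH : DirectSum.IsInternal WH)
    (hi : ∀ r h, h ∈ WH r → i h ∈ W r) : Coind i X →ₗ[B] X where
  toFun := degc (grMod_VC hW hV hWH hi).int V D.qK 0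
  map_add' := map_add _
  map_smul' b f := by
    rw [RingHom.id_apply]
    have hC := grMod_VC hW hV hWH hi
    refine induction_gr hW.int (P := fun b => degc hC.int V D.qK 0 (b • f) =
      b • degc hC.int V D.qK 0 f) ?_ ?_ b
    · intro s b hb
      refine induction_gr hC.int (P := fun f => degc hC.int V D.qK 0 (b • f) =
        b • degc hC.int V D.qK 0 f) ?_ ?_ f
      · intro r f hf
        rw [degc_of_mem hC.int _ _ hf, degc_of_mem hC.int _ _ (hC.smul hb hf), add_assoc]
        have h1 : D.qK (b • f) = b • D.qK f := map_smul D.q b f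
        rw [h1, cpt_smul hV hb]
      · intro f g hf hg
        rw [smul_add, map_add, hf, hg, map_add, smul_add]
    · intro b c hb hc
      rw [add_smul, map_add, hb, hc, add_smul]

variable (hW : GrAlg W) (hV : GrMod W V) (hWH : DirectSum.IsInternal WH)
    (hi : ∀ r h, h ∈ WH r → i h ∈ W r)

theorem q0_of_mem {r : ℚ} {f : Coind i X} (hf : f ∈ VC i W V r) :
    D.q0 hW hV hWH hi f = cpt V r (D.q f) := by
  change degc (grMod_VC hW hV hWH hi).int V D.qK 0 f = _
  rw [degc_of_mem _ _ _ hf, add_zero]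
  rfl

theorem q0_mem {r : ℚ} {f : Coind i X} (hf : f ∈ VC i W V r) :
    D.q0 hW hV hWH hi f ∈ V r := by
  rw [q0_of_mem D hW hV hWH hi hf]
  exact cpt_mem hV.int _ _

theorem q0_j (x : X) : D.q0 hW hV hWH hi (Coind.j x) = x := by
  refine induction_gr hV.int (P := fun x => D.q0 hW hV hWH hi (Coind.j x) = x) ?_ ?_ x
  · intro r x hx
    rw [q0_of_mem D hW hV hWH hi (j_mem_VC hV hx), q_j, cpt_of_mem hV.int hx, if_pos rfl]
  · intro x y hx hy
    rw [map_add, map_add, hx, hy]

/-- the graded complement of `X` in `Coind X` -/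
noncomputable abbrev KQ : Submodule B (Coind i X) := LinearMap.ker (D.q0 hW hV hWH hi)

/-- the grading of the complement -/
noncomputable def VQ (r : ℚ) : Submodule K ↥(D.KQ hW hV hWH hi) where
  carrier := {v | (v : Coind i X) ∈ VC i W V r}
  add_mem' := fun hv hw => (VC i W V r).add_mem hv hw
  zero_mem' := (VC i W V r).zero_mem
  smul_mem' := fun c _ hv => (VC i W V r).smul_mem c hv

theorem mem_VQ {r : ℚ} {v : ↥(D.KQ hW hV hWH hi)} :
    v ∈ D.VQ hW hV hWH hi r ↔ (v : Coind i X) ∈ VC i W V r := Iff.rfl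

theorem cpt_mem_ker {f : Coind i X} (hf : f ∈ D.KQ hW hV hWH hi) (r : ℚ) :
    cpt (VC i W V) r f ∈ D.KQ hW hV hWH hi := by
  rw [LinearMap.mem_ker] at hf ⊢
  have h := cpt_map (grMod_VC hW hV hWH hi).int hV.int
    ((D.q0 hW hV hWH hi).restrictScalars K) (fun s x hx => D.q0_mem hW hV hWH hi hx) r f
  rw [LinearMap.restrictScalars_apply, LinearMap.restrictScalars_apply, hf, map_zero] at h
  exact h.symm

theorem grMod_VQ : GrMod W (D.VQ hW hV hWH hi) where
  int := by
    have hC := grMod_VC hW hV hWH hi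
    refine isInternal_of ?_ ?_
    · intro v
      obtain ⟨S, hS⟩ := finsum_eq_sum_cpt hC.int (v : Coind i X)
      have h1 : v = ∑ r ∈ S, (⟨cpt (VC i W V) r (v : Coind i X),
          D.cpt_mem_ker hW hV hWH hi v.2 r⟩ : ↥(D.KQ hW hV hWH hi)) := by
        apply Subtype.ext
        rw [AddSubmonoidClass.coe_finsetSum]
        exact hS
      rw [h1]
      exact Submodule.sum_mem _ fun r _ => Submodule.mem_iSup_of_mem r (cpt_mem hC.int r _)
    · intro S v hv hsum r hr
      apply Subtype.ext
      have h1 : ∑ t ∈ S, (v t : Coind i X) = 0 := by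
        rw [← AddSubmonoidClass.coe_finsetSum, hsum]
        rfl
      have h2 := congrArg (cpt (VC i W V) r) h1
      rw [map_sum, map_zero, Finset.sum_eq_single r] at h2
      · rw [cpt_of_mem hC.int (hv r hr), if_pos rfl] at h2
        exact h2
      · intro t ht htr
        rw [cpt_of_mem hC.int (hv t ht), if_neg htr]
      · exact fun h => absurd hr h
  smul := fun ha hx => (grMod_VC hW hV hWH hi).smul ha hx

/-- the two complements of `X` are isomorphic -/
noncomputable def kerEquiv : ↥(LinearMap.ker (D.q (X := X))) ≃ₗ[B] ↥(D.KQ hW hV hWH hi) where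
  toFun v := ⟨(v : Coind i X) - Coind.j (D.q0 hW hV hWH hi v), by
    rw [LinearMap.mem_ker, map_sub, q0_j, sub_self]⟩
  map_add' v w := by
    apply Subtype.ext
    change ((v : Coind i X) + (w : Coind i X)) - Coind.j (D.q0 hW hV hWH hi (v + w)) =
      ((v : Coind i X) - Coind.j (D.q0 hW hV hWH hi v)) +
      ((w : Coind i X) - Coind.j (D.q0 hW hV hWH hi w))
    rw [map_add, map_add]
    abel
  map_smul' b v := by
    apply Subtype.ext
    change (b • (v : Coind i X)) - Coind.j (D.q0 hW hV hWH hi (b • (v : Coind i X))) =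
      b • ((v : Coind i X) - Coind.j (D.q0 hW hV hWH hi v))
    rw [map_smul, map_smul, smul_sub]
  invFun v := D.piQ (v : Coind i X)
  left_inv v := by
    apply Subtype.ext
    rw [piQ_coe]
    change ((v : Coind i X) - (Coind.j (D.q0 hW hV hWH hi v) : Coind i X)) -
      (Coind.j (D.q ((v : Coind i X) - (Coind.j (D.q0 hW hV hWH hi v) : Coind i X))) :
        Coind i X) = v
    rw [map_sub, D.q_j, LinearMap.mem_ker.1 v.2, zero_sub, map_neg, sub_neg_eq_add,
      sub_add_cancel]
  right_inv v := by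
    apply Subtype.ext
    change ((D.piQ (v : Coind i X) : ↥(LinearMap.ker (D.q (X := X)))) : Coind i X) -
      (Coind.j (D.q0 hW hV hWH hi ((D.piQ (v : Coind i X) :
        ↥(LinearMap.ker (D.q (X := X)))) : Coind i X)) : Coind i X) = (v : Coind i X)
    rw [piQ_coe, map_sub, q0_j, LinearMap.mem_ker.1 v.2, zero_sub, map_neg, sub_neg_eq_add,
      sub_add_cancel]

/-- **the graded complement of `X` in the coinduced module is projective** -/
theorem projective_KQ : Module.Projective B ↥(D.KQ hW hV hWH hi) := by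
  have := D.projective_ker (X := X)
  exact Module.Projective.of_equiv (D.kerEquiv hW hV hWH hi)

theorem finite_KQ : Module.Finite B ↥(D.KQ hW hV hWH hi) := by
  have h1 : FiniteDimensional K ↥(D.KQ hW hV hWH hi) :=
    inferInstanceAs (FiniteDimensional K ↥((D.KQ hW hV hWH hi).restrictScalars K))
  exact Module.Finite.of_restrictScalars_finite K B _

theorem finrank_add (x : B) (r : ℚ) :
    finrank K ↥(cor1 K (Coind i X) x ⊓ VC i W V r) =
      finrank K ↥(cor1 K X x ⊓ V r) +
        finrank K ↥(cor1 K ↥(D.KQ hW hV hWH hi) x ⊓ D.VQ hW hV hWH hi r) := by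
  set U : Submodule K (Coind i X) := cor1 K (Coind i X) x ⊓ VC i W V r with hU
  set T : Coind i X →ₗ[K] X := (D.q0 hW hV hWH hi).restrictScalars K with hT
  have hTa : ∀ f, T f = D.q0 hW hV hWH hi f := fun _ => rfl
  rw [← LinearMap.finrank_range_add_finrank_ker (T.domRestrict U)]
  congr 1
  · have h1 : LinearMap.range (T.domRestrict U) = cor1 K X x ⊓ V r := by
      rw [LinearMap.range_domRestrict]
      ext y
      constructor
      · rintro ⟨f, hf, rfl⟩
        refine ⟨?_, D.q0_mem hW hV hWH hi hf.2⟩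
        change x • D.q0 hW hV hWH hi f = D.q0 hW hV hWH hi f
        rw [← map_smul]
        congr 1
        exact hf.1
      · rintro ⟨h1, h2⟩
        refine ⟨Coind.j y, ⟨?_, j_mem_VC hV h2⟩, D.q0_j hW hV hWH hi y⟩
        change x • (Coind.j y : Coind i X) = Coind.j y
        rw [← map_smul]
        congr 1
    rw [h1]
  · have h1 : (LinearMap.ker (T.domRestrict U)).map U.subtype = U ⊓ LinearMap.ker T := by
      ext f
      constructor
      · rintro ⟨g, hg, rfl⟩
        exact ⟨g.2, hg⟩
      · rintro ⟨h1, h2⟩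
        exact ⟨⟨f, h1⟩, h2, rfl⟩
    have h2 : (cor1 K ↥(D.KQ hW hV hWH hi) x ⊓ D.VQ hW hV hWH hi r).map
        ((D.KQ hW hV hWH hi).subtype.restrictScalars K) = U ⊓ LinearMap.ker T := by
      ext f
      constructor
      · rintro ⟨g, hg, rfl⟩
        refine ⟨⟨?_, hg.2⟩, g.2⟩
        have h3 : x • g = g := hg.1
        exact congrArg (fun g : ↥(D.KQ hW hV hWH hi) => (g : Coind i X)) h3
      · rintro ⟨h1, h2⟩
        refine ⟨⟨f, h2⟩, ⟨?_, h1.2⟩, rfl⟩
        change x • (⟨f, h2⟩ : ↥(D.KQ hW hV hWH hi)) = ⟨f, h2⟩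
        apply Subtype.ext
        exact h1.1
    have h3 := LinearEquiv.finrank_eq (Submodule.equivMapOfInjective U.subtype
      U.injective_subtype (LinearMap.ker (T.domRestrict U)))
    have h4 := LinearEquiv.finrank_eq (Submodule.equivMapOfInjective
      ((D.KQ hW hV hWH hi).subtype.restrictScalars K)
      (D.KQ hW hV hWH hi).injective_subtype
      (cor1 K ↥(D.KQ hW hV hWH hi) x ⊓ D.VQ hW hV hWH hi r))
    rw [h3, h4, h1, h2]

/-- **(O3a)** the graded dimension of `x (Coind X)` -/
theorem gd_coind (x : B) :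
    gd (VC i W V) (cor1 K (Coind i X) x) =
      gd V (cor1 K X x) + gd (D.VQ hW hV hWH hi) (cor1 K ↥(D.KQ hW hV hWH hi) x) := by
  have h1 : FiniteDimensional K ↥(D.KQ hW hV hWH hi) :=
    inferInstanceAs (FiniteDimensional K ↥((D.KQ hW hV hWH hi).restrictScalars K))
  refine coeff_ext fun r => ?_
  rw [AddMonoidAlgebra.coeff_add, Finsupp.add_apply,
    coeff_gd (grMod_VC hW hV hWH hi).int.submodule_iSupIndep,
    coeff_gd hV.int.submodule_iSupIndep,
    coeff_gd (D.grMod_VQ hW hV hWH hi).int.submodule_iSupIndep,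
    D.finrank_add hW hV hWH hi x r]
  push_cast
  rfl

end CData

end Vale.P179.H815.Co
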