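import Vale.Agent.P179.H815.LL2
import Vale.Agent.P179.H445.RelEnd4

/-!
# Lemma L (REL), part 3: permutation bases

Every homomorphism `L / LJ Q → L / LJ Q` is, modulo `LJ Q`, a sum of products `n_t c` (`t`
normalises `Q`, `c` centralises `Q`) and of homomorphisms through `L / LJ R`, `R < Q`.
-/

namespace Vale.P179.H815.LL

open Module Vale.P179.H175

section Perm

variable {K L P I : Type*} [Field K] [Ring L] [Algebra K L] [CommGroup P]
  {u : P →* L} {b : Basis I K L} {act : P × P →* Equiv.Perm I}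

/-- the norm element -/
def nrm (u : P →* L) (Q : Subgroup P) [Fintype Q] : L := ∑ q : Q, u q

theorem u_nrm (Q : Subgroup P) [Fintype Q] (q : Q) : u q * nrm u Q = nrm u Q := by
  unfold nrm
  rw [Finset.mul_sum]
  simp_rw [← map_mul]
  exact Fintype.sum_equiv (Equiv.mulLeft q) _ _ fun x => by simp

theorem nrm_u (Q : Subgroup P) [Fintype Q] (q : Q) : nrm u Q * u q = nrm u Q := by
  unfold nrm
  rw [Finset.sum_mul]
  simp_rw [← map_mul]
  exact Fintype.sum_equiv (Equiv.mulRight q) _ _ fun x => by simp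

theorem LJ_nrm (Q : Subgroup P) [Fintype Q] {z : L} (hz : z ∈ LJ K (u '' (Q : Set P))) :
    z * nrm u Q = 0 := by
  unfold LJ at hz
  induction hz using Submodule.span_induction with
  | mem z hz =>
    obtain ⟨l, y, ⟨q, hq, rfl⟩, rfl⟩ := hz
    rw [mul_assoc, sub_mul, one_mul, u_nrm Q ⟨q, hq⟩, sub_self, mul_zero]
  | zero => rw [zero_mul]
  | add x y _ _ hx hy => rw [add_mul, hx, hy, add_zero]
  | smul c x _ hx => rw [smul_mul_assoc, hx, smul_zero]

variable [Fintype I]
  (hact : ∀ (x y : P) (i : I), b (act (x, y) i) = u x * b i * u y⁻¹)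
  (hfree : ∀ (i : I) (x : P), b i * u x = b i → x = 1)

include hact hfree in
theorem mem_LJ_of_nrm (Q : Subgroup P) [Fintype Q] {z : L} (hz : z * nrm u Q = 0) :
    z ∈ LJ K (u '' (Q : Set P)) := by
  let actQ : Q →* Equiv.Perm I := act.comp ((MonoidHom.inr P P).comp Q.subtype)
  let r : Q →* Module.End K L :=
    { toFun := fun q => LinearMap.mulRight K (u (q : P)⁻¹)
      map_one' := by
        refine LinearMap.ext fun v => ?_
        change v * u ((1 : Q) : P)⁻¹ = v
        simp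
      map_mul' := fun x y => by
        refine LinearMap.ext fun v => ?_
        change v * u ((x * y : Q) : P)⁻¹ = v * u (y : P)⁻¹ * u (x : P)⁻¹
        rw [Subgroup.coe_mul, mul_inv_rev, map_mul, mul_assoc] }
  obtain ⟨η, hη⟩ := H445.End.exists_eta b actQ r (fun q i => by
      change b i * u (q : P)⁻¹ = b (act (1, (q : P)) i)
      rw [hact, map_one, one_mul]) (fun q i h => by
      have h1 : b (act (1, (q : P)) i) = b i := congrArg b h
      rw [hact, map_one, one_mul] at h1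
      have := hfree i _ h1
      rw [inv_eq_one] at this
      exact Subtype.ext this)
  have h1 : ∀ v, v = ∑ q : Q, η (v * u q) * u (q : P)⁻¹ := by
    intro v
    have := hη v
    rw [this]
    refine (Finset.sum_congr rfl fun q _ => ?_)
    rw [← this]
    change η (v * u ((q⁻¹ : Q) : P)⁻¹) * u (q : P)⁻¹ = _
    simp
  have h2 : ∑ q : Q, η (z * u q) = 0 := by
    rw [← map_sum, ← Finset.mul_sum]
    change η (z * nrm u Q) = 0
    rw [hz, map_zero]
  rw [h1 z]
  have h3 : ∑ q : Q, η (z * u q) * u (q : P)⁻¹ = ∑ q : Q, η (z * u q) * (u (q : P)⁻¹ - 1) := by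
    simp_rw [mul_sub, mul_one]
    rw [Finset.sum_sub_distrib, h2, sub_zero]
  rw [h3]
  refine Submodule.sum_mem _ fun q _ => mul_sub_mem_LJ _ ?_
  exact ⟨(q : P)⁻¹, Q.inv_mem q.2, rfl⟩

/-- the left stabiliser in `Q` of a right `Q`-orbit -/
def stR (act : P × P →* Equiv.Perm I) (Q : Subgroup P) (i : I) : Subgroup P where
  carrier := {x | x ∈ Q ∧ ∃ y ∈ Q, act (x, y) i = i}
  mul_mem' := by
    rintro x x' ⟨hx, y, hy, h⟩ ⟨hx', y', hy', h'⟩
    refine ⟨Q.mul_mem hx hx', y * y', Q.mul_mem hy hy', ?_⟩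
    have : ((x * x', y * y') : P × P) = (x, y) * (x', y') := rfl
    rw [this, map_mul, Equiv.Perm.mul_apply, h', h]
  one_mem' := ⟨Q.one_mem, 1, Q.one_mem, by
    have : ((1, 1) : P × P) = 1 := rfl
    rw [this, map_one]; rfl⟩
  inv_mem' := by
    rintro x ⟨hx, y, hy, h⟩
    refine ⟨Q.inv_mem hx, y⁻¹, Q.inv_mem hy, ?_⟩
    have : ((x⁻¹, y⁻¹) : P × P) = (x, y)⁻¹ := rfl
    rw [this, map_inv, Equiv.Perm.inv_eq_iff_eq, h]

omit [Fintype I] in
theorem mem_stR {Q : Subgroup P} {i : I} {x : P} :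
    x ∈ stR act Q i ↔ x ∈ Q ∧ ∃ y ∈ Q, act (x, y) i = i := Iff.rfl

omit [Fintype I] in
theorem stR_le (Q : Subgroup P) (i : I) : stR act Q i ≤ Q := fun _ hx => hx.1

/-- coset representatives of the left stabiliser -/
noncomputable def btm (u : P →* L) (act : P × P →* Equiv.Perm I) (Q : Subgroup P) [Fintype Q]
    (i : I) : L := by
  classical
  exact ∑ c : ↥Q ⧸ (stR act Q i).subgroupOf Q, u ((Quotient.out c : ↥Q) : P)

omit [Fintype I] in
theorem out_mul (Q : Subgroup P) (R : Subgroup P) (q : Q) :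
    ∃ r ∈ R, r ∈ Q ∧ (q : P) = ((Quotient.out (QuotientGroup.mk q : ↥Q ⧸ R.subgroupOf Q) : ↥Q) : P) * r := by
  have h := QuotientGroup.mk_out_eq_mul (R.subgroupOf Q) q
  obtain ⟨⟨r, hr⟩, h⟩ := h
  rw [Subgroup.mem_subgroupOf] at hr
  refine ⟨(r : P)⁻¹, R.inv_mem hr, Q.inv_mem r.2, ?_⟩
  have h2 := congrArg (fun z : Q => (z : P)) h
  simp only [Subgroup.coe_mul] at h2
  change ((Quotient.out (QuotientGroup.mk q : ↥Q ⧸ R.subgroupOf Q) : ↥Q) : P) = q * r at h2
  rw [h2, mul_inv_cancel_right]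

include hact hfree in
/-- orbit sums -/
theorem orbit_sum (Q : Subgroup P) [Fintype Q] (i : I) [DecidablePred fun j =>
      ∃ x ∈ Q, ∃ y ∈ Q, act (x, y) i = j] :
    btm u act Q i * b i * nrm u Q =
      ∑ j ∈ Finset.univ.filter (fun j => ∃ x ∈ Q, ∃ y ∈ Q, act (x, y) i = j), b j := by
  classical
  have hmul : ∀ (x y x' y' : P) (j : I), act (x, y) (act (x', y') j) = act (x * x', y * y') j := by
    intro x y x' y' j
    rw [← Equiv.Perm.mul_apply, ← map_mul]
    rfl
  have h1 : btm u act Q i * b i * nrm u Q =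
      ∑ c : (↥Q ⧸ (stR act Q i).subgroupOf Q) × Q,
        b (act (((Quotient.out c.1 : ↥Q) : P), (c.2 : P)⁻¹) i) := by
    unfold btm nrm
    rw [Fintype.sum_prod_type, Finset.sum_mul, Finset.sum_mul]
    refine Finset.sum_congr rfl fun c _ => ?_
    rw [Finset.mul_sum]
    refine Finset.sum_congr rfl fun q _ => ?_
    rw [hact, inv_inv]
  rw [h1]
  refine Finset.sum_bij
    (fun c _ => act (((Quotient.out c.1 : ↥Q) : P), (c.2 : P)⁻¹) i) ?_ ?_ ?_ ?_
  · intro c _
    rw [Finset.mem_filter]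
    exact ⟨Finset.mem_univ _, _, SetLike.coe_mem _, _, Q.inv_mem c.2.2, rfl⟩
  · rintro ⟨c, q⟩ _ ⟨c', q'⟩ _ h
    simp only at h
    have h2 : act ((((Quotient.out c' : ↥Q) : P))⁻¹ * ((Quotient.out c : ↥Q) : P),
        (q' : P) * (q : P)⁻¹) i = i := by
      have h3 := congrArg (act ((((Quotient.out c' : ↥Q) : P))⁻¹, (q' : P))) h
      rw [hmul, hmul, inv_mul_cancel, mul_inv_cancel] at h3
      rw [h3]
      have : ((1, 1) : P × P) = 1 := rfl
      rw [this, map_one]; rfl
    have h3 : (Quotient.out c' : ↥Q)⁻¹ * (Quotient.out c : ↥Q) ∈ (stR act Q i).subgroupOf Q := by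
      rw [Subgroup.mem_subgroupOf, mem_stR]
      exact ⟨SetLike.coe_mem _, _, Q.mul_mem q'.2 (Q.inv_mem q.2), h2⟩
    have h4 : c' = c := by
      have := QuotientGroup.eq.2 h3
      rwa [QuotientGroup.out_eq', QuotientGroup.out_eq'] at this
    subst h4
    have h5 : (q' : P) * (q : P)⁻¹ = 1 := by
      have h6 : b (act (1, (q' : P) * (q : P)⁻¹) i) = b i := by
        rw [inv_mul_cancel] at h2
        rw [h2]
      rw [hact, map_one, one_mul] at h6
      have := hfree i _ h6
      rwa [inv_eq_one] at this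
    have h6 : q' = q := Subtype.ext (mul_inv_eq_one.1 h5)
    rw [h6]
  · intro j hj
    rw [Finset.mem_filter] at hj
    obtain ⟨-, x, hx, y, hy, rfl⟩ := hj
    obtain ⟨r, hr, hrQ, h⟩ := out_mul Q (stR act Q i) ⟨x, hx⟩
    obtain ⟨-, y', hy', h'⟩ := mem_stR.1 hr
    refine ⟨(QuotientGroup.mk ⟨x, hx⟩, ⟨y' * y⁻¹, Q.mul_mem hy' (Q.inv_mem hy)⟩),
      Finset.mem_univ _, ?_⟩
    change x = _ at h
    conv_rhs => rw [h]
    change act (((Quotient.out (QuotientGroup.mk (⟨x, hx⟩ : ↥Q) :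
      ↥Q ⧸ (stR act Q i).subgroupOf Q) : ↥Q) : P), (y' * y⁻¹)⁻¹) i = _
    have h7 : (y' * y⁻¹)⁻¹ = y * y'⁻¹ := by rw [mul_inv_rev, inv_inv]
    have h8 : ∀ g : P, act (g, y * y'⁻¹) i = act (g * r, y) i := by
      intro g
      conv_lhs => rw [← h']
      rw [hmul, inv_mul_cancel_right]
    rw [h7]
    exact h8 _
  · intro c _
    rfl

include hact hfree in
/-- **the decomposition of a homomorphism** -/
theorem exists_dec (Q : Subgroup P) [Fintype Q] {x : L}
    (hx : x ∈ Mor K (u '' (Q : Set P)) (u '' (Q : Set P))) :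
    x ∈ Submodule.span K {z | ∃ i, z = btm u act Q i * b i} ⊔ LJ K (u '' (Q : Set P)) := by
  classical
  let s : Setoid I :=
    { r := fun i j => ∃ x ∈ Q, ∃ y ∈ Q, act (x, y) i = j
      iseqv :=
        { refl := fun i => ⟨1, Q.one_mem, 1, Q.one_mem, by
            have : ((1, 1) : P × P) = 1 := rfl
            rw [this, map_one]; rfl⟩
          symm := by
            rintro i j ⟨x, hx, y, hy, rfl⟩
            refine ⟨x⁻¹, Q.inv_mem hx, y⁻¹, Q.inv_mem hy, ?_⟩
            have : ((x⁻¹, y⁻¹) : P × P) = (x, y)⁻¹ := rfl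
            rw [this, map_inv, Equiv.Perm.inv_eq_iff_eq]
          trans := by
            rintro i j l ⟨x, hx, y, hy, rfl⟩ ⟨x', hx', y', hy', rfl⟩
            refine ⟨x' * x, Q.mul_mem hx' hx, y' * y, Q.mul_mem hy' hy, ?_⟩
            have : ((x' * x, y' * y) : P × P) = (x', y') * (x, y) := rfl
            rw [this, map_mul, Equiv.Perm.mul_apply] } }
  set z := x * nrm u Q with hz
  have hz1 : ∀ q ∈ Q, u q * z = z := by
    intro q hq
    have h1 := LJ_nrm Q (hx (u q) ⟨q, hq, rfl⟩)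
    rw [sub_mul, one_mul, sub_mul, sub_eq_zero, mul_assoc] at h1
    exact h1
  have hz2 : ∀ q ∈ Q, z * u q = z := by
    intro q hq
    rw [hz, mul_assoc, nrm_u Q ⟨q, hq⟩]
  have hinv : ∀ x ∈ Q, ∀ y ∈ Q, ∀ i, b.repr z (act (x, y) i) = b.repr z i := by
    intro x hx y hy i
    have h := H445.End.repr_act hact x y z i
    rwa [hz1 x hx, hz2 _ (Q.inv_mem hy)] at h
  -- decomposition of `z`
  have h1 : z = ∑ O : Quotient s, b.repr z O.out • (btm u act Q O.out * b O.out * nrm u Q) := by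
    conv_lhs => rw [← b.sum_repr z]
    rw [← Finset.sum_fiberwise (s := Finset.univ) (g := fun i : I => (⟦i⟧ : Quotient s))]
    refine Finset.sum_congr rfl fun O _ => ?_
    rw [orbit_sum hact hfree Q O.out, Finset.smul_sum]
    have h2 : (Finset.univ.filter fun i : I => (⟦i⟧ : Quotient s) = O) =
        Finset.univ.filter (fun j => ∃ x ∈ Q, ∃ y ∈ Q, act (x, y) O.out = j) := by
      ext j
      rw [Finset.mem_filter, Finset.mem_filter]
      refine and_congr_right fun _ => ?_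
      constructor
      · intro h
        have h3 : (⟦O.out⟧ : Quotient s) = ⟦j⟧ := by rw [Quotient.out_eq, h]
        exact Quotient.exact h3
      · intro h
        have h3 : (⟦O.out⟧ : Quotient s) = ⟦j⟧ := Quotient.sound h
        rw [← h3, Quotient.out_eq]
    rw [h2]
    refine Finset.sum_congr rfl fun j hj => ?_
    rw [Finset.mem_filter] at hj
    obtain ⟨-, x, hx, y, hy, rfl⟩ := hj
    rw [hinv x hx y hy]
  have h2 : (x - ∑ O : Quotient s, b.repr z O.out • (btm u act Q O.out * b O.out)) *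
      nrm u Q = 0 := by
    rw [sub_mul, Finset.sum_mul, ← hz]
    simp_rw [smul_mul_assoc]
    rw [← h1, sub_self]
  have h3 := mem_LJ_of_nrm hact hfree Q h2
  have h4 : x = (∑ O : Quotient s, b.repr z O.out • (btm u act Q O.out * b O.out)) +
      (x - ∑ O : Quotient s, b.repr z O.out • (btm u act Q O.out * b O.out)) := by abel
  rw [h4]
  refine Submodule.add_mem_sup (Submodule.sum_mem _ fun O _ => Submodule.smul_mem _ _ ?_) h3
  exact Submodule.subset_span ⟨_, rfl⟩

end Perm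

end Vale.P179.H815.LL
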