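import Vale.Agent.P179.H815.LL3
import Vale.Agent.P179.H737.LL5

/-!
# Lemma L (REL), part 6: the induction
-/

namespace Vale.P179.H815.LL

open Module Vale.P179.H175
open Vale.P179.H300.LL (chi chi_idem mul_chi chi_mul chi_comm chi_mem sum_chi chi_mul_chi avg_comm)
open Vale.P179.H737.R (RQ emb tq)

section alg

variable {K : Type*} [Field K] {A : Type*} [Ring A] [Algebra K A]

/-- if a primitive idempotent is in the span of `S`, some element of `S` gives a unit -/
theorem PrimIn.exists_unit_of_span [FiniteDimensional K A] {E : Subalgebra K A} {ε : A}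
    (hε : PrimIn E ε) {S : Set A} (hS : S ⊆ E) (h : ε ∈ Submodule.span K S) :
    ∃ s ∈ S, UnitIn E ε (ε * s * ε) := by
  by_contra hcon
  push Not at hcon
  have key : ∀ x ∈ Submodule.span K S, x ∈ E ∧ ¬ UnitIn E ε (ε * x * ε) := by
    intro x hx
    induction hx using Submodule.span_induction with
    | mem x hx => exact ⟨hS hx, hcon x hx⟩
    | zero =>
      refine ⟨E.zero_mem, ?_⟩
      rintro ⟨z, -, -, -, h3, -⟩
      rw [mul_zero, zero_mul, zero_mul] at h3
      exact hε.ne h3.symm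
    | add x y _ _ hx hy =>
      refine ⟨E.add_mem hx.1 hy.1, fun hu => ?_⟩
      have hu' : UnitIn E ε (∑ i : Bool, (if i then ε * x * ε else ε * y * ε)) := by
        rw [Fintype.sum_bool]
        simpa [mul_add, add_mul] using hu
      obtain ⟨i, -, hi⟩ := hε.exists_unit_of_sum Finset.univ _ (fun i _ => by
          cases i
          · exact E.mul_mem (E.mul_mem hε.mem hy.1) hε.mem
          · exact E.mul_mem (E.mul_mem hε.mem hx.1) hε.mem) (fun i _ => by
          cases i <;> simp [← mul_assoc, hε.idem]) (fun i _ => by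
          cases i <;> simp [mul_assoc, hε.idem]) hu'
      cases i
      · exact hy.2 (by simpa using hi)
      · exact hx.2 (by simpa using hi)
    | smul c x _ hx =>
      refine ⟨E.smul_mem hx.1 c, fun hu => ?_⟩
      obtain ⟨z, hz, hz1, hz2, hz3, hz4⟩ := hu
      refine hx.2 ⟨c • z, E.smul_mem hz c, by rw [mul_smul_comm, hz1],
        by rw [smul_mul_assoc, hz2], ?_, ?_⟩
      · have h1 : ε * x * ε * (c • z) = ε * (c • x) * ε * z := by
          simp only [mul_smul_comm, smul_mul_assoc]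
        rw [h1, hz3]
      · have h1 : c • z * (ε * x * ε) = z * (ε * (c • x) * ε) := by
          simp only [mul_smul_comm, smul_mul_assoc]
        rw [h1, hz4]
  refine (key ε h).2 ?_
  rw [hε.idem, hε.idem]
  exact hε.self_unit

end alg

section main

variable {K L P T : Type} [Field K] [Ring L] [Algebra K L] [CommGroup P]
  [CommGroup T] (d : LDat K L P T)

/-- the image of a subgroup -/
def uim (Q : Subgroup P) : Set L := d.u '' (Q : Set P)

theorem homY_uim (Q : Subgroup P) : HomY d.W (uim d Q) := by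
  rintro _ ⟨x, _, rfl⟩
  exact ⟨0, sub_mem (d.u0 x) d.gr.one⟩

/-- the homomorphisms factoring through the `L / LJ Q`, `Q ∈ 𝒬` -/
def IdS (Y : Set L) (𝒬 : Set (Subgroup P)) : Set L :=
  {z | ∃ Q ∈ 𝒬, ∃ r : ℚ, ∃ β ∈ Mor K Y (uim d Q), β ∈ d.W (-r) ∧
    ∃ α ∈ Mor K (uim d Q) Y, α ∈ d.W r ∧ z = β * α} ∪ {z | z ∈ LJ K Y ∧ z ∈ d.W 0}

def Idl (Y : Set L) (𝒬 : Set (Subgroup P)) : Submodule K L := Submodule.span K (IdS d Y 𝒬)

theorem IdS_sub (Y : Set L) (𝒬 : Set (Subgroup P)) : IdS d Y 𝒬 ⊆ (E0 d.gr Y : Set L) := by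
  rintro z (⟨Q, -, r, β, hβ, hβr, α, hα, hαr, rfl⟩ | ⟨h1, h2⟩)
  · refine mem_E0.2 ⟨Mor_mul hβ hα, ?_⟩
    have := d.gr.mul hβr hαr
    rwa [neg_add_cancel] at this
  · exact mem_E0.2 ⟨LJ_le_Mor h1, h2⟩

theorem Idl_mulL {Y : Set L} {𝒬 : Set (Subgroup P)} {x : L} (hx : x ∈ E0 d.gr Y) {z : L}
    (hz : z ∈ Idl d Y 𝒬) : x * z ∈ Idl d Y 𝒬 := by
  unfold Idl at hz
  rw [mem_E0] at hx
  induction hz using Submodule.span_induction with
  | mem z hz =>
    refine Submodule.subset_span ?_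
    rcases hz with ⟨Q, hQ, r, β, hβ, hβr, α, hα, hαr, rfl⟩ | ⟨h1, h2⟩
    · left
      refine ⟨Q, hQ, r, x * β, Mor_mul hx.1 hβ, ?_, α, hα, hαr, (mul_assoc _ _ _).symm⟩
      have := d.gr.mul hx.2 hβr
      rwa [zero_add] at this
    · right
      refine ⟨mul_mem_LJ _ h1, ?_⟩
      have := d.gr.mul hx.2 h2
      rwa [zero_add] at this
  | zero => rw [mul_zero]; exact Submodule.zero_mem _
  | add x y _ _ hx hy => rw [mul_add]; exact Submodule.add_mem _ hx hy
  | smul c x _ hx => rw [mul_smul_comm]; exact Submodule.smul_mem _ _ hx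

theorem Idl_mulR {Y : Set L} {𝒬 : Set (Subgroup P)} {x : L} (hx : x ∈ E0 d.gr Y) {z : L}
    (hz : z ∈ Idl d Y 𝒬) : z * x ∈ Idl d Y 𝒬 := by
  unfold Idl at hz
  rw [mem_E0] at hx
  induction hz using Submodule.span_induction with
  | mem z hz =>
    refine Submodule.subset_span ?_
    rcases hz with ⟨Q, hQ, r, β, hβ, hβr, α, hα, hαr, rfl⟩ | ⟨h1, h2⟩
    · left
      refine ⟨Q, hQ, r, β, hβ, hβr, α * x, Mor_mul hα hx.1, ?_, mul_assoc _ _ _⟩
      have := d.gr.mul hαr hx.2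
      rwa [add_zero] at this
    · right
      refine ⟨LJ_mul_Mor h1 hx.1, ?_⟩
      have := d.gr.mul h2 hx.2
      rwa [zero_add] at this
  | zero => rw [zero_mul]; exact Submodule.zero_mem _
  | add x y _ _ hx hy => rw [add_mul]; exact Submodule.add_mem _ hx hy
  | smul c x _ hx => rw [smul_mul_assoc]; exact Submodule.smul_mem _ _ hx

variable {ν : Type} (F : ν → Type) [∀ i, AddCommGroup (F i)] [∀ i, Module K (F i)]
  [∀ i, Module L (F i)] [∀ i, IsScalarTower K L (F i)] [∀ i, FiniteDimensional K (F i)]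
  (V : ∀ i, ℚ → Submodule K (F i)) (hV : ∀ i, GrMod d.W (V i))

/-- the class -/
noncomputable def cls (Y : Set L) (f : L) : ν → RQ := fun i => emb (gd (V i) (cl K (F i) Y f))

omit [∀ i, FiniteDimensional K (F i)] in
theorem cls_zero {Y : Set L} {f : L} (hf : f ∈ LJ K Y) : cls F V Y f = 0 := by
  funext i
  change emb (gd (V i) (cl K (F i) Y f)) = 0
  rw [cl_zero hf, gd_bot, map_zero]

include hV in
theorem cls_add {Y : Set L} {f g : L} (hf : f ∈ E0 d.gr Y) (hg : g ∈ E0 d.gr Y)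
    (hff : f * f = f) (hgg : g * g = g) (hfg : f * g = 0) (hgf : g * f = 0) :
    cls F V Y (f + g) = cls F V Y f + cls F V Y g := by
  funext i
  change emb (gd (V i) (cl K (F i) Y (f + g))) = emb _ + emb _
  rw [gd_cl_add (hV i) hf.1 hf.2 hg.2 hff hgg hfg hgf, map_add]

include hV in
theorem cls_equiv {Y Z : Set L} {a b f g : L} {r : ℚ} (ha : a ∈ Mor K Z Y) (har : a ∈ d.W r)
    (hb : b ∈ Mor K Y Z) (hbr : b ∈ d.W (-r)) (hba : b * a = f) (hab : a * b = g) :
    cls F V Z g = tq r • cls F V Y f := by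
  funext i
  change emb (gd (V i) (cl K (F i) Z g)) = tq r * emb _
  rw [gd_cl_equiv (hV i) ha har hb hbr hba hab, map_mul, H737.R.emb_tq]

include hV in
theorem cls_equiv' {Y Z : Set L} {a b f g : L} {r : ℚ} (ha : a ∈ Mor K Z Y) (har : a ∈ d.W r)
    (hb : b ∈ Mor K Y Z) (hbr : b ∈ d.W (-r)) (hba : b * a = f) (hab : a * b = g)
    (h : cls F V Z g ∈ PP d.W F V) : cls F V Y f ∈ PP d.W F V := by
  have h1 := cls_equiv d F V hV ha har hb hbr hba hab
  have h2 : cls F V Y f = tq (-r) • cls F V Z g := by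
    rw [h1, smul_smul, H737.R.tq_mul, neg_add_cancel, H737.R.tq_zero, one_smul]
  rw [h2]
  exact Submodule.smul_mem _ _ h

include hV in
/-- idempotents factoring through the `L / LJ Q` -/
theorem cls_of_mem_Idl [FiniteDimensional K L] {Y : Set L} {𝒬 : Set (Subgroup P)}
    (IH : ∀ Q ∈ 𝒬, ∀ g ∈ E0 d.gr (uim d Q), g * g = g → cls F V (uim d Q) g ∈ PP d.W F V) :
    ∀ f ∈ E0 d.gr Y, f * f = f → f ∈ Idl d Y 𝒬 → cls F V Y f ∈ PP d.W F V := by
  refine idem_induction (E0 d.gr Y) (P := fun f => f ∈ Idl d Y 𝒬 → cls F V Y f ∈ PP d.W F V)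
    ?_ ?_ ?_
  · intro _
    rw [cls_zero F V (Submodule.zero_mem _)]
    exact Submodule.zero_mem _
  · intro ε hε hI
    obtain ⟨s, hs, w, hw, hw1, hw2, hw3, hw4⟩ := hε.exists_unit_of_span (IdS_sub d Y 𝒬) hI
    have hεE := mem_E0.1 hε.mem
    have hwE := mem_E0.1 hw
    rcases hs with ⟨Q, hQ, r, β, hβ, hβr, α, hα, hαr, rfl⟩ | ⟨h1, -⟩
    · obtain ⟨a, ha⟩ : ∃ a, a = α * ε := ⟨_, rfl⟩
      obtain ⟨b, hb⟩ : ∃ b, b = w * ε * β := ⟨_, rfl⟩
      have haM : a ∈ Mor K (uim d Q) Y := ha ▸ Mor_mul hα hεE.1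
      have haW : a ∈ d.W r := by
        have := d.gr.mul hαr hεE.2
        rw [add_zero] at this
        rwa [ha]
      have hbM : b ∈ Mor K Y (uim d Q) := hb ▸ Mor_mul (Mor_mul hwE.1 hεE.1) hβ
      have hbW : b ∈ d.W (-r) := by
        have := d.gr.mul (d.gr.mul hwE.2 hεE.2) hβr
        rw [add_zero, zero_add] at this
        rwa [hb]
      have hba : b * a = ε := by
        calc b * a = w * (ε * (β * α) * ε) := by rw [hb, ha]; noncomm_ring
          _ = ε := hw4
      have haε : a * ε = a := by rw [ha, mul_assoc, hε.idem]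
      have hεb : ε * b = b := by rw [hb, ← mul_assoc, ← mul_assoc, hw1]
      refine cls_equiv' d F V hV haM haW hbM hbW hba rfl (IH Q hQ (a * b) ?_ ?_)
      · refine mem_E0.2 ⟨Mor_mul haM hbM, ?_⟩
        have := d.gr.mul haW hbW
        rwa [add_neg_cancel] at this
      · calc a * b * (a * b) = a * (b * a) * b := by noncomm_ring
          _ = a * b := by rw [hba, haε]
    · have h2 : ε ∈ LJ K Y := by
        rw [← hw4]
        refine mul_mem_LJ _ ?_
        exact LJ_mul_Mor (mul_mem_LJ _ h1) hεE.1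
      rw [cls_zero F V h2]
      exact Submodule.zero_mem _
  · intro f hf g hg hff hgg hfg hgf h1 h2 h3
    rw [cls_add d F V hV hf hg hff hgg hfg hgf]
    refine Submodule.add_mem _ (h1 ?_) (h2 ?_)
    · have := Idl_mulL d hf h3
      rwa [mul_add, hff, hfg, add_zero] at this
    · have := Idl_mulL d hg h3
      rwa [mul_add, hgg, hgf, zero_add] at this

/-! ### the local structure at `Q` -/

/-- the normaliser of `Q` in `T` -/
def NT (Q : Subgroup P) : Subgroup T where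
  carrier := {t | ∀ x, d.act t x ∈ Q ↔ x ∈ Q}
  mul_mem' := fun {s t} hs ht x => by
    rw [map_mul, MulAut.mul_apply, hs, ht]
  one_mem' := fun x => by rw [map_one]; rfl
  inv_mem' := fun {t} ht x => by
    rw [← ht, ← MulAut.mul_apply, ← map_mul, mul_inv_cancel, map_one]; rfl

theorem mem_NT {Q : Subgroup P} {t : T} : t ∈ NT d Q ↔ ∀ x, d.act t x ∈ Q ↔ x ∈ Q := Iff.rfl

theorem n_mul_inv (t : T) : d.n t * d.n t⁻¹ = 1 := by rw [← map_mul, mul_inv_cancel, map_one]

theorem inv_mul_n (t : T) : d.n t⁻¹ * d.n t = 1 := by rw [← map_mul, inv_mul_cancel, map_one]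

theorem u_n (t : T) (x : P) : d.u x * d.n t = d.n t * d.u (d.act t⁻¹ x) := by
  rw [d.nu, ← MulAut.mul_apply, ← map_mul, mul_inv_cancel, map_one]; rfl

/-- the centraliser of `Q ⋊ N` in degree `0` -/
def Sub (Q : Subgroup P) : Subalgebra K L where
  carrier := {s | s ∈ d.W 0 ∧ (∀ q ∈ Q, s * d.u q = d.u q * s) ∧ ∀ t ∈ NT d Q, s * d.n t = d.n t * s}
  mul_mem' := fun {a b} ha hb => ⟨by
      have := d.gr.mul ha.1 hb.1
      rwa [add_zero] at this,
    fun q hq => by rw [mul_assoc, hb.2.1 q hq, ← mul_assoc, ha.2.1 q hq, mul_assoc],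
    fun t ht => by rw [mul_assoc, hb.2.2 t ht, ← mul_assoc, ha.2.2 t ht, mul_assoc]⟩
  add_mem' := fun {a b} ha hb => ⟨add_mem ha.1 hb.1,
    fun q hq => by rw [add_mul, mul_add, ha.2.1 q hq, hb.2.1 q hq],
    fun t ht => by rw [add_mul, mul_add, ha.2.2 t ht, hb.2.2 t ht]⟩
  algebraMap_mem' := fun c => ⟨by
      rw [Algebra.algebraMap_eq_smul_one]
      exact Submodule.smul_mem _ _ d.gr.one, fun q _ => Algebra.commutes _ _,
    fun t _ => Algebra.commutes _ _⟩

theorem comm_mem_Mor {Q : Subgroup P} {c : L} (hc : ∀ q ∈ Q, c * d.u q = d.u q * c) :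
    c ∈ Mor K (uim d Q) (uim d Q) := by
  rintro _ ⟨q, hq, rfl⟩
  have : (d.u q - 1) * c = c * (d.u q - 1) := by rw [sub_mul, mul_sub, hc q hq, one_mul, mul_one]
  rw [this]
  exact mul_sub_mem_LJ _ ⟨q, hq, rfl⟩

theorem n_mem_E0 {Q : Subgroup P} {t : T} (ht : t ∈ NT d Q) : d.n t ∈ E0 d.gr (uim d Q) := by
  refine mem_E0.2 ⟨?_, d.n0 t⟩
  rintro _ ⟨q, hq, rfl⟩
  have : (d.u q - 1) * d.n t = d.n t * (d.u (d.act t⁻¹ q) - 1) := by
    rw [sub_mul, mul_sub, u_n, one_mul, mul_one]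
  rw [this]
  exact mul_sub_mem_LJ _ ⟨_, ((NT d Q).inv_mem ht q).2 hq, rfl⟩

theorem Sub_le (Q : Subgroup P) : Sub d Q ≤ E0 d.gr (uim d Q) := fun _ hs =>
  mem_E0.2 ⟨comm_mem_Mor d hs.2.1, hs.1⟩

/-- the products `n_t c` -/
def NC (Q : Subgroup P) : Set L :=
  {z | ∃ t ∈ NT d Q, ∃ c, (∀ q ∈ Q, c * d.u q = d.u q * c) ∧ z = d.n t * c}

theorem dec_term [Finite P] (act : P × P →* Equiv.Perm d.I)
    (hact : ∀ (x y : P) (i : d.I), d.b (act (x, y) i) = d.u x * d.b i * d.u y⁻¹)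
    (Q : Subgroup P) [Fintype Q] (i : d.I) : btm d.u act Q i * d.b i ∈ NC d Q ∨
      ∃ R < Q, btm d.u act Q i ∈ Mor K (uim d Q) (uim d R) ∧ btm d.u act Q i ∈ d.W 0 ∧
        d.b i ∈ Mor K (uim d R) (uim d Q) := by
  classical
  have : Fintype d.I := d.fin
  have hst : ∀ x y : P, act (x, y) i = i → d.u x * d.b i = d.b i * d.u y := fun x y h =>
    (H445.End.act_eq_iff hact x y i).1 h
  by_cases hR : stR act Q i = Q
  · left
    obtain ⟨t, ht⟩ := d.tw i
    have h1 : ∀ q ∈ Q, ∃ y ∈ Q, d.u q * d.b i = d.b i * d.u y ∧ q = d.act t y := by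
      intro q hq
      rw [← hR] at hq
      obtain ⟨-, y, hy, h⟩ := mem_stR.1 hq
      exact ⟨y, hy, hst q y h, ht q y (hst q y h)⟩
    have h2 : Q = Q.map (d.act t : P →* P) := by
      refine Subgroup.eq_of_le_of_card_ge ?_ ?_
      · intro q hq
        obtain ⟨y, hy, -, h⟩ := h1 q hq
        exact ⟨y, hy, h.symm⟩
      · exact (Nat.card_congr (Q.equivMapOfInjective _ (d.act t).injective).toEquiv).ge
    have hN : t ∈ NT d Q := by
      intro x
      constructor
      · intro h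
        rw [h2] at h
        obtain ⟨y, hy, h⟩ := h
        rwa [← (d.act t).injective h]
      · intro h
        rw [h2]
        exact ⟨x, h, rfl⟩
    have hsub : Subsingleton (↥Q ⧸ (stR act Q i).subgroupOf Q) := by
      rw [hR, Subgroup.subgroupOf_self]
      exact QuotientGroup.subsingleton_quotient_top
    let c0 : ↥Q ⧸ (stR act Q i).subgroupOf Q := QuotientGroup.mk 1
    have hb : btm d.u act Q i = d.u ((Quotient.out c0 : ↥Q) : P) := by
      unfold btm
      exact Fintype.sum_eq_single c0 fun c hc => absurd (Subsingleton.elim c c0) hc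
    obtain ⟨g, hg⟩ : ∃ g : P, g = ((Quotient.out c0 : ↥Q) : P) := ⟨_, rfl⟩
    rw [← hg] at hb
    refine ⟨t, hN, d.n t⁻¹ * (d.u g * d.b i), ?_, ?_⟩
    · intro q hq
      obtain ⟨y, -, h3, h4⟩ := h1 (d.act t q) ((hN q).2 hq)
      have h5 : y = q := (d.act t).injective h4.symm
      rw [h5] at h3
      have h6 : d.u q * d.n t⁻¹ = d.n t⁻¹ * d.u (d.act t q) := by
        rw [u_n, inv_inv]
      calc d.n t⁻¹ * (d.u g * d.b i) * d.u q = d.n t⁻¹ * (d.u g * (d.b i * d.u q)) := by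
            noncomm_ring
        _ = d.n t⁻¹ * ((d.u g * d.u (d.act t q)) * d.b i) := by rw [← h3]; noncomm_ring
        _ = d.n t⁻¹ * ((d.u (d.act t q) * d.u g) * d.b i) := by
            rw [← map_mul, mul_comm, map_mul]
        _ = d.n t⁻¹ * d.u (d.act t q) * (d.u g * d.b i) := by noncomm_ring
        _ = d.u q * (d.n t⁻¹ * (d.u g * d.b i)) := by rw [← h6, mul_assoc]
    · rw [hb, ← mul_assoc, n_mul_inv, one_mul]
  · right
    have hlt : stR act Q i < Q := lt_of_le_of_ne (stR_le Q i) hR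
    refine ⟨stR act Q i, hlt, ?_, ?_, ?_⟩
    · rintro _ ⟨q, hq, rfl⟩
      -- the sum over the cosets
      have h1 : ∀ c : ↥Q ⧸ (stR act Q i).subgroupOf Q, ∃ r ∈ stR act Q i,
          q * ((Quotient.out c : ↥Q) : P) =
            ((Quotient.out ((⟨q, hq⟩ : ↥Q) • c) : ↥Q) : P) * r := by
        intro c
        obtain ⟨r, hr, -, h⟩ := out_mul Q (stR act Q i) (⟨q, hq⟩ * (Quotient.out c : ↥Q))
        refine ⟨r, hr, ?_⟩
        have h2 : (QuotientGroup.mk (⟨q, hq⟩ * (Quotient.out c : ↥Q)) :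
            ↥Q ⧸ (stR act Q i).subgroupOf Q) = (⟨q, hq⟩ : ↥Q) • c := by
          conv_rhs => rw [← QuotientGroup.out_eq' c]
          rfl
        rw [h2] at h
        exact h
      choose r hr hrr using h1
      have h2 : d.u q * btm d.u act Q i =
          ∑ c : ↥Q ⧸ (stR act Q i).subgroupOf Q,
            d.u ((Quotient.out ((⟨q, hq⟩ : ↥Q) • c) : ↥Q) : P) * d.u (r c) := by
        unfold btm
        rw [Finset.mul_sum]
        refine Finset.sum_congr rfl fun c _ => ?_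
        rw [← map_mul, hrr, map_mul]
      have h3 : btm d.u act Q i =
          ∑ c : ↥Q ⧸ (stR act Q i).subgroupOf Q,
            d.u ((Quotient.out ((⟨q, hq⟩ : ↥Q) • c) : ↥Q) : P) := by
        unfold btm
        exact (Equiv.sum_comp (MulAction.toPerm (⟨q, hq⟩ : ↥Q) :
          Equiv.Perm (↥Q ⧸ (stR act Q i).subgroupOf Q))
          fun c => d.u ((Quotient.out c : ↥Q) : P)).symm
      have h4 : (d.u q - 1) * btm d.u act Q i =
          ∑ c : ↥Q ⧸ (stR act Q i).subgroupOf Q,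
            d.u ((Quotient.out ((⟨q, hq⟩ : ↥Q) • c) : ↥Q) : P) * (d.u (r c) - 1) := by
        rw [sub_mul, one_mul, h2]
        conv_lhs => rw [h3]
        rw [← Finset.sum_sub_distrib]
        exact Finset.sum_congr rfl fun c _ => by rw [mul_sub, mul_one]
      rw [h4]
      exact Submodule.sum_mem _ fun c _ => mul_sub_mem_LJ _ ⟨r c, hr c, rfl⟩
    · unfold btm
      exact Submodule.sum_mem _ fun c _ => d.u0 _
    · rintro _ ⟨x, hx, rfl⟩
      obtain ⟨-, y, hy, h⟩ := mem_stR.1 hx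
      rw [sub_mul, one_mul, hst x y h]
      have : d.b i * d.u y - d.b i = d.b i * (d.u y - 1) := by rw [mul_sub, mul_one]
      rw [this]
      exact mul_sub_mem_LJ _ ⟨y, hy, rfl⟩

/-- the products through smaller subgroups -/
def TR (Q : Subgroup P) : Set L :=
  {z | ∃ R < Q, ∃ β ∈ Mor K (uim d Q) (uim d R), β ∈ d.W 0 ∧
    ∃ α ∈ Mor K (uim d R) (uim d Q), z = β * α}

theorem dec0 [Finite P] (Q : Subgroup P) {x : L} (hx : x ∈ Mor K (uim d Q) (uim d Q)) :
    x ∈ Submodule.span K (NC d Q ∪ TR d Q) ⊔ LJ K (uim d Q) := by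
  classical
  have : Fintype d.I := d.fin
  have : Fintype Q := Fintype.ofFinite Q
  obtain ⟨act, hact⟩ := H445.End.exists_act (u := d.u) d.b d.stab
  have hfree : ∀ (i : d.I) (x : P), d.b i * d.u x = d.b i → x = 1 := by
    intro i x h
    obtain ⟨t, ht⟩ := d.tw i
    have h1 := ht 1 x (by rw [map_one, one_mul, h])
    exact (d.act t).injective (by rw [← h1, map_one])
  have h1 := exists_dec hact hfree Q hx
  refine (sup_le_sup_right ?_ (LJ K (uim d Q))) h1
  rw [Submodule.span_le]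
  rintro _ ⟨i, rfl⟩
  rcases dec_term d act hact Q i with h | ⟨R, hR, h2, h3, h4⟩
  · exact Submodule.subset_span (Or.inl h)
  · exact Submodule.subset_span (Or.inr ⟨R, hR, _, h2, h3, _, h4, rfl⟩)

/-- the products `n_t c` of degree `0` -/
def NC0 (Q : Subgroup P) : Set L :=
  {z | ∃ t ∈ NT d Q, ∃ c ∈ d.W 0, (∀ q ∈ Q, c * d.u q = d.u q * c) ∧ z = d.n t * c}

theorem dec1 [Finite P] (Q : Subgroup P) {x : L} (hx : x ∈ E0 d.gr (uim d Q)) :
    x ∈ Submodule.span K (NC0 d Q) ⊔ Idl d (uim d Q) {R | R < Q} := by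
  rw [mem_E0] at hx
  have h0 : cpt d.W 0 x = x := H175.cpt_of_mem d.gr.int hx.2
  have h1 : Submodule.span K (NC d Q ∪ TR d Q) ⊔ LJ K (uim d Q) ≤
      (Submodule.span K (NC0 d Q) ⊔ Idl d (uim d Q) {R | R < Q}).comap (cpt d.W 0) := by
    refine sup_le ?_ ?_
    · rw [Submodule.span_le]
      rintro z (⟨t, ht, c, hc, rfl⟩ | ⟨R, hR, β, hβ, hβ0, α, hα, rfl⟩)
      · rw [SetLike.mem_coe, Submodule.mem_comap, d.gr.cpt_mul (d.n0 t) c 0, sub_zero]
        refine Submodule.mem_sup_left (Submodule.subset_span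
          ⟨t, ht, _, H175.cpt_mem d.gr.int 0 c, fun q hq => ?_, rfl⟩)
        have h2 := d.gr.cpt_mul' c (d.u0 q) 0
        have h3 := d.gr.cpt_mul (d.u0 q) c 0
        rw [sub_zero] at h2 h3
        rw [← h2, ← h3, hc q hq]
      · rw [SetLike.mem_coe, Submodule.mem_comap, d.gr.cpt_mul hβ0 α 0, sub_zero]
        refine Submodule.mem_sup_right (Submodule.subset_span (Or.inl
          ⟨R, hR, 0, β, hβ, by rwa [neg_zero], cpt d.W 0 α,
            homog_Mor d.gr (homY_uim d R) (homY_uim d Q) α hα 0,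
            H175.cpt_mem d.gr.int 0 α, rfl⟩))
    · intro z hz
      rw [Submodule.mem_comap]
      exact Submodule.mem_sup_right (Submodule.subset_span (Or.inr
        ⟨homog_LJ d.gr (homY_uim d Q) z hz 0, H175.cpt_mem d.gr.int 0 z⟩))
  have h2 := h1 (dec0 d Q hx.1)
  rw [Submodule.mem_comap, h0] at h2
  exact h2

/-- the restriction of `n` to the normaliser -/
def nQ (Q : Subgroup P) : ↥(NT d Q) →* L := d.n.comp (NT d Q).subtype

theorem chi_mem_E0 [Finite T] (Q : Subgroup P) (χ : ↥(NT d Q) →* Kˣ) :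
    chi (nQ d Q) χ ∈ E0 d.gr (uim d Q) :=
  chi_mem (W := Subalgebra.toSubmodule (E0 d.gr (uim d Q))) (nQ d Q) χ fun t =>
    n_mem_E0 d t.2

theorem exists_S [Finite P] [Finite T] (Q : Subgroup P) (χ : ↥(NT d Q) →* Kˣ) {x : L}
    (hx : x ∈ E0 d.gr (uim d Q)) : ∃ s ∈ Sub d Q,
      chi (nQ d Q) χ * x * chi (nQ d Q) χ - s * chi (nQ d Q) χ ∈
        Idl d (uim d Q) {R | R < Q} := by
  classical
  have hcE := chi_mem_E0 d Q χ
  have h2 : ∀ y ∈ Submodule.span K (NC0 d Q), ∃ s ∈ Sub d Q,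
      chi (nQ d Q) χ * y * chi (nQ d Q) χ = s * chi (nQ d Q) χ := by
    intro y hy
    induction hy using Submodule.span_induction with
    | mem y hy =>
      obtain ⟨t, ht, c, hc, hcq, rfl⟩ := hy
      refine ⟨(χ ⟨t, ht⟩ : K) • ((Nat.card ↥(NT d Q) : K)⁻¹ •
        ∑ᶠ s : ↥(NT d Q), nQ d Q s * c * nQ d Q s⁻¹), ?_, ?_⟩
      · refine Subalgebra.smul_mem _ ?_ _
        have hfin : Fintype ↥(NT d Q) := Fintype.ofFinite _
        refine ⟨?_, ?_, ?_⟩
        · rw [finsum_eq_sum_of_fintype]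
          refine Submodule.smul_mem _ _ (Submodule.sum_mem _ fun s _ => ?_)
          have := d.gr.mul (d.gr.mul (d.n0 s) hc) (d.n0 (s⁻¹ : ↥(NT d Q)))
          rwa [add_zero, add_zero] at this
        · intro q hq
          rw [finsum_eq_sum_of_fintype, mul_smul_comm, smul_mul_assoc, Finset.mul_sum,
            Finset.sum_mul]
          congr 1
          refine Finset.sum_congr rfl fun s _ => ?_
          change d.n s * c * d.n (s⁻¹ : ↥(NT d Q)) * d.u q =
            d.u q * (d.n s * c * d.n (s⁻¹ : ↥(NT d Q)))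
          rw [Subgroup.coe_inv]
          have hq' : d.act (s : T)⁻¹ q ∈ Q := ((NT d Q).inv_mem s.2 q).2 hq
          calc d.n s * c * d.n (s : T)⁻¹ * d.u q = d.n s * c * (d.n (s : T)⁻¹ * d.u q) := by
                noncomm_ring
            _ = d.n s * (c * d.u (d.act (s : T)⁻¹ q)) * d.n (s : T)⁻¹ := by
                rw [d.nu]; noncomm_ring
            _ = (d.n s * d.u (d.act (s : T)⁻¹ q)) * c * d.n (s : T)⁻¹ := by
                rw [hcq _ hq']; noncomm_ring
            _ = d.u q * (d.n s * c * d.n (s : T)⁻¹) := by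
                rw [← u_n]; noncomm_ring
        · intro s hs
          exact (avg_comm (nQ d Q) c ⟨s, hs⟩).symm
      · have h3 : chi (nQ d Q) χ * d.n t = (χ ⟨t, ht⟩ : K) • chi (nQ d Q) χ :=
          chi_mul (nQ d Q) χ ⟨t, ht⟩
        rw [← mul_assoc, h3, smul_mul_assoc, smul_mul_assoc, smul_mul_assoc, chi_mul_chi]
    | zero => exact ⟨0, Subalgebra.zero_mem _, by simp⟩
    | add x y _ _ hx hy =>
      obtain ⟨s, hs, h⟩ := hx
      obtain ⟨s', hs', h'⟩ := hy
      exact ⟨s + s', Subalgebra.add_mem _ hs hs', by rw [mul_add, add_mul, add_mul, h, h']⟩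
    | smul c x _ hx =>
      obtain ⟨s, hs, h⟩ := hx
      exact ⟨c • s, Subalgebra.smul_mem _ hs c, by
        rw [mul_smul_comm, smul_mul_assoc, smul_mul_assoc, h]⟩
  have h1 := dec1 d Q hx
  rw [Submodule.mem_sup] at h1
  obtain ⟨y, hy, z, hz, rfl⟩ := h1
  obtain ⟨s, hs, h3⟩ := h2 y hy
  refine ⟨s, hs, ?_⟩
  have h4 : chi (nQ d Q) χ * (y + z) * chi (nQ d Q) χ - s * chi (nQ d Q) χ =
      chi (nQ d Q) χ * z * chi (nQ d Q) χ := by
    rw [← h3]; noncomm_ring
  rw [h4]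
  exact Idl_mulR d hcE (Idl_mulL d hcE hz)

/-- the action of the normaliser on `Q` -/
@[reducible] def actQ (Q : Subgroup P) : MulDistribMulAction ↥(NT d Q) ↥Q where
  smul t x := ⟨d.act t x, (t.2 x).2 x.2⟩
  one_smul x := Subtype.ext (by change d.act (1 : T) (x : P) = x; rw [map_one]; rfl)
  mul_smul s t x := Subtype.ext (by
    change d.act ((s : T) * t) (x : P) = d.act s (d.act t x)
    rw [map_mul]; rfl)
  smul_mul t x y := Subtype.ext (by
    change d.act (t : T) ((x : P) * y) = d.act t x * d.act t y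
    rw [map_mul])
  smul_one t := Subtype.ext (by change d.act (t : T) (1 : P) = 1; rw [map_one])

theorem sum_cosets {G M : Type*} [Group G] [AddCommMonoid M] [Fintype G] (R : Subgroup G)
    [Fintype R] [Fintype (G ⧸ R)] (f : G → M) :
    ∑ x, f x = ∑ r : R, ∑ c : G ⧸ R, f (Quotient.out c * r) := by
  classical
  rw [Finset.sum_comm, ← Fintype.sum_prod_type' fun (c : G ⧸ R) (r : R) =>
    f (Quotient.out c * (r : G))]
  symm
  refine Function.Bijective.sum_comp (e := fun c : (G ⧸ R) × R => Quotient.out c.1 * (c.2 : G))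
    ⟨?_, ?_⟩ f
  · rintro ⟨c, r⟩ ⟨c', r'⟩ h
    simp only at h
    have h1 : c = c' := by
      have h2 := congrArg (QuotientGroup.mk : G → G ⧸ R) h
      rw [QuotientGroup.mk_mul_of_mem _ r.2, QuotientGroup.mk_mul_of_mem _ r'.2,
        QuotientGroup.out_eq', QuotientGroup.out_eq'] at h2
      exact h2
    subst h1
    have h3 := mul_left_cancel h
    rw [Subtype.ext h3]
  · intro x
    obtain ⟨r, hr⟩ := QuotientGroup.mk_out_eq_mul R x
    refine ⟨(QuotientGroup.mk x, r⁻¹), ?_⟩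
    change Quotient.out (QuotientGroup.mk x : G ⧸ R) * ((r⁻¹ : R) : G) = x
    rw [Subgroup.coe_inv]
    have h4 : (Quotient.out (QuotientGroup.mk x : G ⧸ R)) = x * r := hr
    rw [h4, mul_inv_cancel_right]

omit [∀ i, IsScalarTower K L (F i)] [∀ i, FiniteDimensional K (F i)] in
theorem Adm_mono [∀ i, IsScalarTower K L (F i)] [Finite P] {Q R : Subgroup P} (hRQ : R ≤ Q)
    (h : Adm (K := K) d.u F Q) : Adm (K := K) d.u F R := by
  classical
  intro i
  obtain ⟨η, hη⟩ := h i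
  have : Fintype Q := Fintype.ofFinite Q
  have : Fintype R := Fintype.ofFinite R
  have : Fintype ↥(R.subgroupOf Q) := Fintype.ofFinite _
  let sm : P → (F i →ₗ[K] F i) := fun x =>
    { toFun := fun v => d.u x • v
      map_add' := fun v w => smul_add _ _ _
      map_smul' := fun c v => smul_algebra_smul_comm _ _ _ }
  let η' : F i →ₗ[K] F i := ∑ c : ↥Q ⧸ R.subgroupOf Q,
    sm ((Quotient.out c : ↥Q) : P) ∘ₗ η ∘ₗ sm (((Quotient.out c : ↥Q) : P)⁻¹)
  refine ⟨η', fun v => ?_⟩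
  have hη' : ∀ v, η' v = ∑ c : ↥Q ⧸ R.subgroupOf Q, d.u ((Quotient.out c : ↥Q) : P) •
      η (d.u (((Quotient.out c : ↥Q) : P)⁻¹) • v) := by
    intro v
    simp only [η', LinearMap.sum_apply]
    rfl
  conv_rhs => rw [← hη v]
  rw [finsum_eq_sum_of_fintype, finsum_eq_sum_of_fintype,
    sum_cosets (R.subgroupOf Q) fun x : ↥Q => d.u x • η (d.u (x : P)⁻¹ • v)]
  symm
  refine Fintype.sum_equiv (Subgroup.subgroupOfEquivOfLe hRQ).toEquiv _ _ fun r => ?_
  rw [hη', Finset.smul_sum]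
  refine Finset.sum_congr rfl fun c _ => ?_
  change d.u (((Quotient.out c : ↥Q) : P) * ((r : ↥Q) : P)) •
    η (d.u (((Quotient.out c : ↥Q) : P) * ((r : ↥Q) : P))⁻¹ • v) =
    d.u ((r : ↥Q) : P) • (d.u ((Quotient.out c : ↥Q) : P) •
      η (d.u (((Quotient.out c : ↥Q) : P)⁻¹) • d.u (((r : ↥Q) : P)⁻¹) • v))
  rw [← mul_smul (d.u ((r : ↥Q) : P)), ← map_mul, ← mul_smul (d.u (((Quotient.out c : ↥Q) : P)⁻¹)),
    ← map_mul, mul_comm ((r : ↥Q) : P), mul_inv]

variable (p : ℕ) [Fact p.Prime] [IsAlgClosed K] [CharP K p] [FiniteDimensional K L] [Finite P]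
  [Finite T] (hP : IsPGroup p P) (hT : ((Nat.card T : ℕ) : K) ≠ 0)

include hP hT hV in
theorem cls_chi (Q : Subgroup P) (hQ : Adm (K := K) d.u F Q) {a : L} (ha : a ∈ Sub d Q)
    (haa : a * a = a) (χ : ↥(NT d Q) →* Kˣ) :
    cls F V (uim d Q) (a * chi (nQ d Q) χ) ∈ PP d.W F V := by
  classical
  have : Fintype Q := Fintype.ofFinite Q
  let _ := actQ d Q
  have hN : ((Nat.card ↥(NT d Q) : ℕ) : K) ≠ 0 := by
    intro h
    obtain ⟨c, hc⟩ := Subgroup.card_subgroup_dvd_card (NT d Q)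
    apply hT
    rw [hc, Nat.cast_mul, h, zero_mul]
  have hr : Set.range (d.u.comp Q.subtype) = uim d Q := by
    ext z
    constructor
    · rintro ⟨x, rfl⟩
      exact ⟨x, x.2, rfl⟩
    · rintro ⟨x, hx, rfl⟩
      exact ⟨⟨x, hx⟩, rfl⟩
  have h := H737.R.ll5 p K ↥Q ↥(NT d Q) (hP.to_subgroup Q) hN L d.W d.gr (d.u.comp Q.subtype)
    (nQ d Q) (fun x => d.u0 x) (fun t => d.n0 t) (fun t x => d.nu t x) ν F V hV (fun i => by
      obtain ⟨η, hη⟩ := hQ i
      refine ⟨η, fun v => ?_⟩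
      have := hη v
      rw [finsum_eq_sum_of_fintype] at this
      exact this) a ha.1 haa (fun x => ha.2.1 x x.2) (fun t => ha.2.2 t t.2) χ
  rw [hr] at h
  exact h

include hP hT hV in
theorem main_ind : ∀ (m : ℕ) (Q : Subgroup P), Nat.card Q ≤ m → Adm (K := K) d.u F Q →
    ∀ f ∈ E0 d.gr (uim d Q), f * f = f → cls F V (uim d Q) f ∈ PP d.W F V := by
  intro m
  induction m with
  | zero =>
    intro Q hQ
    have : 0 < Nat.card Q := Nat.card_pos
    omega
  | succ m ih =>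
    intro Q hQm hQ
    have IH : ∀ R ∈ {R : Subgroup P | R < Q}, ∀ g ∈ E0 d.gr (uim d R), g * g = g →
        cls F V (uim d R) g ∈ PP d.W F V := by
      intro R hR
      have h1 : Nat.card R < Nat.card Q := Set.Finite.card_lt_card (Set.toFinite (Q : Set P)) hR
      exact ih R (by omega) (Adm_mono d F (le_of_lt hR) hQ)
    have hI := cls_of_mem_Idl d F V hV (Y := uim d Q) IH
    refine idem_induction (E0 d.gr (uim d Q)) (P := fun f => cls F V (uim d Q) f ∈ PP d.W F V)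
      ?_ ?_ ?_
    · rw [cls_zero F V (Submodule.zero_mem _)]
      exact Submodule.zero_mem _
    · intro ε hε
      by_cases hεI : ε ∈ Idl d (uim d Q) {R | R < Q}
      · exact hI ε hε.mem hε.idem hεI
      have : Fintype (↥(NT d Q) →* Kˣ) := Fintype.ofFinite _
      have hN : ((Nat.card ↥(NT d Q) : ℕ) : K) ≠ 0 := by
        intro h
        obtain ⟨c, hc⟩ := Subgroup.card_subgroup_dvd_card (NT d Q)
        apply hT
        rw [hc, Nat.cast_mul, h, zero_mul]
      obtain ⟨χ, a, ha, haa, f₁, hf₁, f₂, hf₂, h11, h22, h12, h21, hsum, hf₂I, x, hx, y, hy, hxy,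
        hyx⟩ := PrimIn.compare (Sub_le d Q) (fun χ => chi (nQ d Q) χ)
        (fun χ => chi_mem_E0 d Q χ) (fun χ => chi_idem hN _ χ)
        (fun s hs χ => chi_comm (nQ d Q) χ fun t => hs.2.2 t t.2)
        (by rw [← finsum_eq_sum_of_fintype]; exact sum_chi hN _)
        (Idl d (uim d Q) {R | R < Q}) (fun x hx j hj => Idl_mulL d hx hj)
        (fun x hx j hj => Idl_mulR d hx hj) (fun χ x hx => exists_S d Q χ hx) hε hεI
      have h3 := cls_chi d F V hV p hP hT Q hQ ha haa χ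
      rw [hsum, cls_add d F V hV hf₁ hf₂ h11 h22 h12 h21] at h3
      have h4 := hI f₂ hf₂ h22 hf₂I
      have h5 : cls F V (uim d Q) f₁ ∈ PP d.W F V := by
        have := Submodule.sub_mem _ h3 h4
        rwa [add_sub_cancel_right] at this
      rw [mem_E0] at hx hy
      exact cls_equiv' d F V hV (r := 0) hy.1 hy.2 hx.1 (by rw [neg_zero]; exact hx.2) hxy hyx h5
    · intro f hf g hg hff hgg hfg hgf h1 h2
      rw [cls_add d F V hV hf hg hff hgg hfg hgf]
      exact Submodule.add_mem _ h1 h2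

end main

/-- **Lemma L** -/
theorem lemmaL : LEMMAL := by
  intro p _ K _ _ _ L P T _ _ _ _ _ _ _ hP hT d ν F _ _ _ _ _ V hV Y hY f hf hfY hff m Q α β hQ
    hβ hα hsum
  -- an honest idempotent
  have hL : ∀ x ∈ E0 d.gr Y, ∀ j ∈ LJ K Y ⊓ d.W 0, x * j ∈ LJ K Y ⊓ d.W 0 := fun x hx j hj =>
    ⟨mul_mem_LJ _ hj.1, by
      have := d.gr.mul hx.2 hj.2
      rwa [add_zero] at this⟩
  have hR : ∀ x ∈ E0 d.gr Y, ∀ j ∈ LJ K Y ⊓ d.W 0, j * x ∈ LJ K Y ⊓ d.W 0 := fun x hx j hj =>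
    ⟨LJ_mul_Mor hj.1 hx.1, by
      have := d.gr.mul hj.2 hx.2
      rwa [add_zero] at this⟩
  obtain ⟨g, hg, hgg, hgf⟩ := exists_idem_lift (E0 d.gr Y) (LJ K Y ⊓ d.W 0) hL hR
    (mem_E0.2 ⟨hfY, hf⟩) ⟨hff, sub_mem (by
      have := d.gr.mul hf hf
      rwa [add_zero] at this) hf⟩
  have h1 : (fun i => emb (gd (V i) (cl K (F i) Y f))) = cls F V Y g := by
    funext i
    rw [← cl_congr (X := F i) hgf.1]
    rfl
  rw [h1]
  refine cls_of_mem_Idl d F V hV (𝒬 := Set.range Q) ?_ g hg hgg ?_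
  · rintro _ ⟨j, rfl⟩ g hg hgg
    exact main_ind d F V hV p hP hT _ (Q j) le_rfl (hQ j) g hg hgg
  · -- the degree `0` component
    have h2 : ∀ j, cpt d.W 0 (β j * α j) ∈ Idl d Y (Set.range Q) := by
      intro j
      obtain ⟨S, -, hS⟩ := H175.sum_cpt_finsupp d.gr.int (α j)
      conv => 
        enter [2, 2]
        rw [← hS]
      rw [Finset.mul_sum, map_sum]
      refine Submodule.sum_mem _ fun r _ => ?_
      have hr := H175.cpt_mem d.gr.int r (α j)
      rw [d.gr.cpt_mul' (β j) hr 0]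
      refine Submodule.subset_span (Or.inl ⟨Q j, ⟨j, rfl⟩, r, _,
        homog_Mor d.gr hY (homY_uim d (Q j)) _ (hβ j) (0 - r), ?_, _,
        homog_Mor d.gr (homY_uim d (Q j)) hY _ (hα j) r, hr, rfl⟩)
      have := H175.cpt_mem d.gr.int (0 - r) (β j)
      rwa [zero_sub] at this ⊢
    have h3 : g = ∑ j, cpt d.W 0 (β j * α j) +
        cpt d.W 0 ((g - f) + (f - ∑ j, β j * α j)) := by
      rw [← map_sum, ← map_add]
      have : ∑ j, β j * α j + (g - f + (f - ∑ j, β j * α j)) = g := by abel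
      rw [this, H175.cpt_of_mem d.gr.int (mem_E0.1 hg).2]
    rw [h3]
    refine Submodule.add_mem _ (Submodule.sum_mem _ fun j _ => h2 j) ?_
    exact Submodule.subset_span (Or.inr ⟨homog_LJ d.gr hY _
      (Submodule.add_mem _ hgf.1 hsum) 0, H175.cpt_mem d.gr.int 0 _⟩)

end Vale.P179.H815.LL
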