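import Vale.Agent.P179.H815.Num2
import Vale.Agent.P179.H300.EP3

/-!
# Numbers (SIGNATURE project), part 3: (A3) from the coinduced modules
-/

namespace Vale.P179.H815

open Module Vale.P179.H175 Vale.P179.H904 Matrix

variable {K : Type*} [Field K] {A : Type*} [Ring A] [Algebra K A]
  {W : ℚ → Submodule K A} {J : Submodule K A} {I : Type*} {e : I → A}

/-- The graded simple module `A e i / J e i` has `gd (e m S) = δ`. -/
theorem gd_simple [DecidableEq I] [FiniteDimensional K A] (h : Basic W J e) (m i : I) :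
    gd W (cor2 K (e m) (e i)) - gd W (J ⊓ cor2 K (e m) (e i)) = if m = i then 1 else 0 := by
  apply coeff_ext
  intro s
  rw [AddMonoidAlgebra.coeff_sub, Finsupp.sub_apply, coeff_gd h.gr.int.submodule_iSupIndep,
    coeff_gd h.gr.int.submodule_iSupIndep]
  by_cases hmi : m = i
  · subst hmi
    rw [if_pos rfl, H300.finrank_diag h m s]
    have h1 : ((1 : AddMonoidAlgebra ℤ ℚ).coeff s) = if s = 0 then 1 else 0 := by
      rw [← tq_zero, tq, AddMonoidAlgebra.coeff_single, Finsupp.single_apply]
      by_cases hs : s = 0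
      · rw [if_pos hs, if_pos hs.symm]
      · rw [if_neg hs, if_neg (fun h' => hs h'.symm)]
    rw [h1]
    push_cast
    split_ifs <;> ring
  · rw [if_neg hmi]
    have h1 : (J ⊓ cor2 K (e m) (e i)) = cor2 K (e m) (e i) := by
      refine inf_eq_right.mpr fun x hx => ?_
      have := h.off m i hmi x
      rwa [hx.1, hx.2] at this
    rw [h1, sub_self]
    simp

theorem gd_simpleQM [DecidableEq I] [FiniteDimensional K A] (h : Basic W J e) (m i : I) :
    gd (QMV h.mulL (e i) W) (cor1 K (A ⧸ QM J h.mulL (e i)) (e m)) = if m = i then 1 else 0 := by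
  rw [gd_QM h.mulL (e i) h.gr h.hom (h.deg i) (h.idem i) (h.deg m) (h.idem m), gd_simple h]

/-- `ct u * Y` in terms of a family. -/
theorem ct_mul_fam {κ ι μ : Type*} [Fintype κ] [DecidableEq κ] [Fintype μ]
    {u : Matrix κ ι ZQ} (m : ι) {a : μ → κ} {r : μ → ℚ}
    (hu : ∀ b, u b m = ∑ k, if a k = b then tq (r k) else 0) {ι' : Type*} (Y : Matrix κ ι' ZQ)
    (i : ι') : (ct u * Y) m i = ∑ k, tq (-(r k)) * Y (a k) i := by
  rw [Matrix.mul_apply]
  simp_rw [ct_apply, hu, map_sum, Finset.sum_mul]
  rw [Finset.sum_comm]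
  refine Finset.sum_congr rfl fun k _ => ?_
  rw [Finset.sum_eq_single (a k)]
  · simp
  · intro b _ hb
    rw [if_neg (Ne.symm hb), map_zero, zero_mul]
  · simp

end Vale.P179.H815
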